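import Vale.Agent.P301Z.Pt.Ray
import Vale.Agent.P301Z.Defs

/-!
# P301, periods: retractions onto the fibres of the ray
-/

open scoped Manifold ContDiff Topology Matrix
open Filter Set Metric
open Vale.Agent.P272.K Vale.Agent.P281Z.Hg
open Vale.Agent.P281Z (Mf Emb HolA)
open Vale.Agent.P301Z.Lat

noncomputable section

namespace Vale.Agent.P301Z.Pt

section top
variable {a b c : ℕ} {X X' X'' : Type} [TopologicalSpace X] [ChartedSpace (Cm a) X]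
  [TopologicalSpace X'] [ChartedSpace (Cm b) X'] [TopologicalSpace X''] [ChartedSpace (Cm c) X'']
  {f f' : X → X'} {g : X' → X''} {x : X}

theorem SmP.comp (hf : SmP a b f x) (hg : SmP b c g (f x)) : SmP a c (fun y => g (f y)) x := by
  refine ⟨hg.cont.comp hf.cont, fun e e' he he' => ?_⟩
  have h0 : e.symm (e x) = x := e.left_inv he.2
  have h1 : SmA b (fun z => f (e.symm z)) (e x) :=
    ⟨ContinuousAt.comp (by rw [h0]; exact hf.cont) (e.continuousAt_symm (e.map_source he.2)),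
      fun e₁ h₁ => hf.sm e e₁ he (by rwa [h0] at h₁)⟩
  exact (h1.comp (g := g) (by rw [h0]; exact hg)).sm e' (by rw [h0]; exact he')

theorem SmP.cng (hf : SmP a b f x) (h : f' =ᶠ[𝓝 x] f) : SmP a b f' x := by
  refine ⟨hf.cont.congr h.symm, fun e e' he he' => ?_⟩
  refine (hf.sm e e' he (by rwa [← h.eq_of_nhds])).congr_of_eventuallyEq ?_
  have h1 : Tendsto e.symm (𝓝 (e x)) (𝓝 x) := by
    simpa only [ContinuousAt, e.left_inv he.2] using e.continuousAt_symm (e.map_source he.2)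
  filter_upwards [h1.eventually h] with z hz
  rw [hz]

theorem smo_of (h : ∀ x, SmP a b f x) : Smo a b f :=
  ⟨continuous_iff_continuousAt.2 fun x => (h x).cont, fun e e' x => (h x).sm e e'⟩

variable [IsManifold 𝓘(ℂ, Cm b) ω X'] [IsManifold 𝓘(ℂ, Cm c) ω X'']

theorem smP_hol {y : X'} (h : HolA b c g y) : SmP b c g y :=
  ⟨h.cont, fun _ _ he he' => ((h.an he he').contDiffAt.restrict_scalars ℝ).of_le le_top⟩

theorem smP_lift [CompactSpace X'] [T2Space X''] {S : Set X''} (h : Emb b c g S)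
    (hf : SmP a c (fun y => g (f y)) x) : SmP a b f x := by
  have hc : ContinuousAt f x := h.cemb.isInducing.continuousAt_iff.2 hf.cont
  obtain ⟨ρ, -, h2, h3⟩ := (h.imm (f x)).ret (h.hol.at _)
  exact (hf.comp (smP_hol h2)).cng ((hc.eventually h3).mono fun y hy => hy.symm)

end top

variable {n r : ℕ} {B : BB n r}

theorem mor_cancel {Z Z' M : MK B} {f : Z'.V.X → M.V.X} {μ : Z.V.X → M.V.X} {ζ : M.V.X → Z.V.X}
    (hf : Z'.Mor M f) (hμ : Z.Mor M μ) (hζ : Smo (n + n) (n + n) ζ) (h : ∀ y, ζ (μ y) = y) :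
    Z'.Mor Z fun y => ζ (f y) := by
  have h0 := Pb1H.smo_comp hf.1 hζ
  refine ⟨h0, fun T hT u hu => ?_⟩
  obtain ⟨Tf, f1, -⟩ := ex_pb hf.1
  obtain ⟨Tμ, μ1, -⟩ := ex_pb hμ.1
  obtain ⟨Tζ, ζ1, ζ2⟩ := ex_pb hζ
  have h1 := (pb1T _ _ _ _ _ h0).2.1 _ _ hT
    (((pbc _ Z'.V.X _ M.V.X f1a k1b').2.2 _ _ f ζ hf.1 hζ).2 _ _ f1 ζ1)
  have h2 := ((pbc _ Z.V.X _ M.V.X f1a k1b').2.2 _ _ μ ζ hμ.1 hζ).2 _ _ μ1 ζ1
  rw [show ζ ∘ μ = id from funext h] at h2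
  have h3 := (pb1T _ _ _ _ _ Pb1H.smo_id).2.1 _ _ h2 (pbc _ Z.V.X (n + n) M.V.X f1a k1b').1
  rw [h1, Function.comp_apply, hf.2 _ f1 _ (ζ2 u hu), ← hμ.2 _ μ1 _ (ζ2 u hu)]
  exact congrArg Z.m.c (congrFun h3 u)

variable {F : Fr B} {k : Fin r → ℝ}

theorem lf_ret {D : ℕ} {V : Mf D} {W : Fld V} {c : ℕ} {t₀ : Cm (c + 1)} {δ : ℝ}
    (L : LF F k W c t₀ δ) {t : Cm (c + 1)} (ht : t ∈ ball t₀ δ) {P : Fb B V} (hP : L.Φ t = P) :
    ∃ Ψ : V.X → P.Y.V.X, range P.i ⊆ L.O ∧ (∀ x ∈ L.O, SmP D (n + n) Ψ x) ∧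
      (∀ y, Ψ (P.i y) = y) ∧ ∀ t' ∈ ball t₀ δ, ∀ P' : Fb B V, L.Φ t' = P' →
        P'.Y.Mor P.Y fun y => Ψ (P'.i y) := by
  subst hP
  have he := L.emb t ht
  choose ζ hζ using fun z => he.ex (y := L.Θ t z) ⟨(L.h1 t ht z).1, (L.h1 t ht z).2.1⟩
  have h1 : ∀ z, SmP (n + n) (n + n) ζ z := fun z => by
    refine smP_lift he ?_
    simp only [hζ]
    exact ⟨(L.Θc t ht z).comp (f := fun z => (t, z)) (by fun_prop), fun e e' h h' =>
      (L.Θs t ht z e e' h h').comp (f := fun z => (t, z)) _ (by fun_prop)⟩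
  have h2 : ∀ y, ζ (L.Ψ ((L.Φ t).i y)) = y := fun y => he.inj (by
    have h3 := L.h2 _ (he.mem y).1
    rw [(he.mem y).2] at h3
    rw [hζ, h3])
  refine ⟨fun x => ζ (L.Ψ x), ?_, fun x hx => SmP.comp ⟨L.Ψc x hx, L.Ψs x hx⟩ (h1 _), h2, ?_⟩
  · rw [he.rng]
    exact inter_subset_left
  · rintro t' ht' _ rfl
    exact mor_cancel (L.mor t' ht') (L.mor t ht) (smo_of h1) h2

variable {x : ℝ} (R : Ray F k x) {T₂ : ℝ} (h : R.T₁ ≤ T₂)

theorem ray_mem {T T' δ : ℝ} (h : |T' - T| < δ) :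
    (fun _ => x + T' * Complex.I : Cm (0 + 1)) ∈ ball (fun _ => x + T * Complex.I) δ := by
  rw [mem_ball, dist_pi_lt_iff ((abs_nonneg _).trans_lt h)]
  intro _
  rwa [dist_add_left, dist_eq_norm, ← sub_mul, norm_mul, Complex.norm_I, mul_one,
    ← Complex.ofReal_sub, Complex.norm_real, Real.norm_eq_abs]

/-- the marked fibres of the ray -/
def rf : Rf B where
  V := R.A.V
  Y T := (R.R T).Y
  i T := (R.R T).i
  T₁ := T₂
  flat T₀ h₀ := by
    obtain ⟨δ, L, hL⟩ := R.loc T₀ (h.trans h₀)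
    have h1 : |T₀ - T₀| < δ := by simpa using L.pos
    obtain ⟨Ψ, p1, p2, p3, p4⟩ := lf_ret L (ray_mem h1) (hL T₀ (h.trans h₀) h1)
    refine ⟨L.O, Ψ, L.opn, p1, p2, p3, ?_⟩
    filter_upwards [self_mem_nhdsWithin, mem_nhdsWithin_of_mem_nhds (ball_mem_nhds T₀ L.pos)]
      with T hT hd
    exact p4 _ (ray_mem hd) _ (hL T (h.trans hT) hd)

/-- the chart given by a covering -/
def ch (K : Sn.Cov R.A) (a : Fin K.A) (ha : 1 ≤ K.m a 0)
    (hU : ∀ T, T₂ ≤ T → R.t T ∈ K.U ∧ ‖R.A.τ (R.t T)‖ < K.c a) : (rf R h).Ch where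
  Θ := K.Θ a
  m := K.m a
  cc := K.c a
  tt T := R.A.τ (R.t T)
  co := K.co a
  tgt := K.tgt a ▸ ball_subset_ball (by norm_num)
  m0 := ha
  cont T hT := ContinuousAt.comp_continuousWithinAt
    (P281Z.AnV.cont (n := 1) fun e he => ((K.leq _ (hU T hT).1).2 e he).1)
    ((R.cont T (h.trans hT)).mono (Ici_subset_Ici.2 h))
  ne T hT h0 := R.off T (h.trans hT) ((K.leq _ (hU T hT).1).1.self_of_nhds.1 h0)
  lt T hT := by
    rw [Complex.norm_real, Real.norm_eq_abs, abs_of_pos (K.c0 a)]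
    exact (hU T hT).2
  fib T hT z hz h1 := by
    have h2 : z ∈ (K.Θ a).target := K.tgt a ▸ ball_subset_ball (by norm_num) hz
    have h3 := (K.Θ a).map_target h2
    have h4 := K.mon a _ h3
    rw [(K.Θ a).right_inv h2, h1] at h4
    exact (R.emb T (h.trans hT)).rng ▸ K.inj (K.sub a _ h3) (hU T hT).1 h4

end Vale.Agent.P301Z.Pt
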