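import Vale.Agent.P301Z.Pt.Top
import Vale.Agent.P301Z.Sn.All
import Vale.Agent.P301Z.Key.All

/-!
# P301: the block FLAT from the block LAT
-/

namespace Vale.Agent.P301Z.Pt

theorem flat (h : Lat.LAT) : FLAT := flat_of (Sn.fibr h) Key.key

end Vale.Agent.P301Z.Pt
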