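import Vale.Agent.P301Z.Pt.Ret
import Vale.Agent.P301Z.Rot.Alg

/-!
# P301, periods: bounded periods kill the classes
-/

open scoped Manifold ContDiff Topology Matrix ComplexOrder
open Filter Set Metric MeasureTheory Complex
open Vale.Agent.P272.K Vale.Agent.P281Z.Hg
open Vale.Agent.P281Z (Mf)
open Vale.Agent.P301.H450 (IsHK)
open Vale.Agent.P301Z.Lat Vale.Agent.P301Z.Rot

noncomputable section

namespace Vale.Agent.P301Z.Pt

section pt
variable {d : ℕ} {w : Mx d}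

theorem hh_le (hw : w.PosDef) (a b : Cm d) : ‖hh w a b‖ ≤ (hh w a a).re + (hh w b b).re := by
  have h0 : ∀ v, 0 ≤ (hh w v v).re := fun v => by
    by_cases hv : v = 0
    · simp [hv, hh]
    · exact (Complex.pos_iff.1 (hh_pos hw hv)).1.le
  obtain ⟨c, hc, h1⟩ := Complex.exists_norm_eq_mul_self (hh w a b)
  have h2 : c * star c = 1 := by
    rw [star_def, Complex.mul_conj, Complex.normSq_eq_norm_sq, hc]
    simp
  have h3 : hh w (c • a - b) (c • a - b) = hh w a a + hh w b b - 2 * (‖hh w a b‖ : ℂ) := by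
    have h4 : star c * hh w b a = ‖hh w a b‖ := by
      rw [← hh_star hw.isHermitian a b, ← star_mul', ← h1, star_def, conj_ofReal]
    have h5 : hh w (c • a - b) (c • a - b) =
        c * star c * hh w a a - c * hh w a b - star c * hh w b a + hh w b b := by
      simp only [hh, star_sub, star_smul, Matrix.mulVec_sub, Matrix.mulVec_smul, sub_dotProduct,
        dotProduct_sub, smul_dotProduct, dotProduct_smul, smul_eq_mul]
      ring
    rw [h5, h2, h4, ← h1]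
    ring
  have h6 := h0 (c • a - b)
  rw [h3] at h6
  simp only [sub_re, add_re, mul_re, re_ofNat, ofReal_re, im_ofNat, ofReal_im] at h6
  linarith [norm_nonneg (hh w a b)]

theorem ss_le {s : Mx d} (hw : w.PosDef) (hs : sᵀ = -s) (hd : s.det ≠ 0)
    (h : w * (sᴴ)⁻¹ * wᵀ = s) (a b : Cm d) : ‖ss s a b‖ ≤ (hh w a a).re + (hh w b b).re := by
  obtain ⟨T, hT⟩ := qt_of_rel hw.isHermitian hs hd h
  have h1 := hh_le hw a (T b)
  rwa [hh_T hT, hh_T hT, ss_skew hs b (T b), ss_T hT, neg_neg] at h1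

theorem hh_pe (J : Mx d) {C : ℝ}
    (h : ((C : ℂ) • (1 : Mx d) - Jᵀ * w * J.map (starRingEnd ℂ)).PosSemidef) (i : Fin d) :
    (hh w (J *ᵥ pe i) (J *ᵥ pe i)).re ≤ 4 * Real.pi ^ 2 * C := by
  have h1 := (Complex.le_def.1 (h.diag_nonneg (i := i))).1
  have h2 : 2 * (Real.pi : ℂ) * I * star (2 * (Real.pi : ℂ) * I) = (4 * Real.pi ^ 2 : ℝ) := by
    rw [star_def, Complex.mul_conj, Complex.normSq_eq_norm_sq]
    simp [mul_pow]
    norm_num
  rw [hh, star_mv, dot_conj, pe, star_single, dot_single, h2, re_ofReal_mul]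
  simp only [Matrix.sub_apply, Matrix.smul_apply, Matrix.one_apply_eq, smul_eq_mul, mul_one,
    zero_re, sub_re, ofReal_re] at h1
  exact mul_le_mul_of_nonneg_left (by linarith) (by positivity)

theorem fd_jm {τ : Cm d → Cm d} {z : Cm d} (h : ContDiffAt ℂ ω τ z) (v : Cm d) :
    fderiv ℝ τ z v = jmat τ z *ᵥ v := by
  have h1 := h.differentiableAt (by simp)
  funext p
  rw [fderivR_of_holo h1, jmat_mulVec h1]
  rfl

variable {V : Mf d} {Φ : Cm d → V.X} {ρ C η : ℝ} {a : ℕ} {v : Cm d} {s w : Fld V} {u : Fs V}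

theorem par_sm (h : ParT ρ Φ) (hv : v ∈ Key.Tb d ρ) : SmA d Φ v :=
  ⟨h.cont v hv, fun e he => ((h.hol v hv e he).restrict_scalars ℝ).of_le le_top⟩

theorem bd_s (h : ParT ρ Φ) (hv : v ∈ Key.Tb d ρ) (hf : Key.Flat (Key.pl w Φ) C η a v)
    (hk : IsHK s w 1) (hs : P301.H599.IsHolTwoForm s) (hd : ∀ e x, At e x → (s e (e x)).det ≠ 0)
    (hu : Is20 s u) (i j : Fin d) : ‖e2 (pf Φ u v) (pe i) (pe j)‖ ≤ 16 * Real.pi ^ 2 * C := by
  have h0 := ca (d := d) (Φ v)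
  have h1 := ss_le (hk.kahler.posDef _ _ h0) (hs.alt _ _ h0) (hd _ _ h0)
    (by simpa using hk.rel _ _ h0) (jmat (fun y => chartAt (Cm d) (Φ v) (Φ y)) v *ᵥ pe i)
    (jmat (fun y => chartAt (Cm d) (Φ v) (Φ y)) v *ᵥ pe j)
  have h2 := hh_pe _ hf.hi i
  have h3 := hh_pe _ hf.hi j
  rw [e2_pf (par_sm h hv), hu _ _ h0, fd_jm (h.hol v hv _ h0), fd_jm (h.hol v hv _ h0)]
  have h4 := (norm_nonneg _).trans h1
  exact (congrArg norm (bv_f20 (hs.alt _ _ h0) _ _)).trans_le (h1.trans (by linarith))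

theorem bd_w (h : ParT ρ Φ) (hv : v ∈ Key.Tb d ρ) (hf : Key.Flat (Key.pl w Φ) C η a v)
    (hk : IsKahler w) (hu : Is11 w u) (i j : Fin d) :
    ‖e2 (pf Φ u v) (pe i) (pe j)‖ ≤ 16 * Real.pi ^ 2 * C := by
  have h0 := ca (d := d) (Φ v)
  have h1 := fun i j => hh_le (hk.posDef _ _ h0)
    (jmat (fun y => chartAt (Cm d) (Φ v) (Φ y)) v *ᵥ pe i)
    (jmat (fun y => chartAt (Cm d) (Φ v) (Φ y)) v *ᵥ pe j)
  have h2 := hh_pe _ hf.hi i
  have h3 := hh_pe _ hf.hi j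
  rw [e2_pf (par_sm h hv), hu _ _ h0, fd_jm (h.hol v hv _ h0), fd_jm (h.hol v hv _ h0)]
  refine (congrArg norm (bv_om _ _ _)).trans_le ?_
  rw [norm_mul, norm_I, one_mul]
  exact (norm_sub_le _ _).trans ((add_le_add (h1 i j) (h1 j i)).trans (by linarith))

theorem tb_plane (hv : v ∈ Key.Tb d ρ) (i j : Fin d) (s t : ℝ) :
    v + s • pe i + t • pe j ∈ Key.Tb d ρ := fun l => by
  have h : ∀ i : Fin d, (pe i l).re = 0 := fun i => by
    by_cases hl : l = i <;> simp [pe, hl]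
  simpa only [Pi.add_apply, Pi.smul_apply, add_re, smul_re, h, smul_zero, add_zero] using hv l

theorem Pe_le {b : ℕ} {Φ : Cm b → V.X} {x p q : Cm b} {M : ℝ}
    (h : ∀ s t : ℝ, ‖e2 (pf Φ u (x + s • p + t • q)) p q‖ ≤ M) : ‖Pe Φ x p q u‖ ≤ M := by
  have h1 := norm_setIntegral_le_of_norm_le_const (μ := volume) (s := Icc (0 : Fin 2 → ℝ) 1)
    (f := fun z => e2 (pf Φ u (x + z 0 • p + z 1 • q)) p q) measure_Icc_lt_top fun z _ => h _ _
  rw [measureReal_def, Real.volume_Icc_pi_toReal zero_le_one] at h1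
  exact h1.trans_eq (by simp)

end pt

theorem big (x M : ℝ) (a : ℂ) {ε : ℝ} (hε : 0 < ε) :
    ∀ᶠ T : ℝ in atTop, ∀ z : ℂ, ε ≤ ‖z‖ → M < ‖a + (x + T * I) * z‖ := by
  filter_upwards [eventually_gt_atTop ((M + ‖a‖) / ε), eventually_ge_atTop 0] with T hT h0 z hz
  have h1 : T ≤ ‖(x + T * I : ℂ)‖ := by
    simpa using (le_abs_self _).trans (Complex.abs_im_le_norm (x + T * I))
  have h2 := norm_sub_le (a + (x + T * I) * z) a
  rw [add_sub_cancel_left, norm_mul] at h2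
  rw [div_lt_iff₀ hε] at hT
  nlinarith [mul_le_mul h1 hz hε.le (norm_nonneg _)]

theorem quad (x M : ℝ) (a b c : ℂ) : ∀ᶠ T : ℝ in atTop,
    ‖a + (x + T * I) * (b + (x + T * I) * c)‖ ≤ M → b = 0 ∧ c = 0 := by
  by_cases hc : c = 0
  · by_cases hb : b = 0
    · exact .of_forall fun _ _ => ⟨hb, hc⟩
    · filter_upwards [big x M a (norm_pos_iff.2 hb)] with T hT h1
      exact absurd h1 (not_le.2 (hT _ (by simp [hc])))
  · filter_upwards [big x M a one_pos, big x 1 b (norm_pos_iff.2 hc)] with T h1 h2 h3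
    exact absurd h3 (not_le.2 (h1 _ (h2 c le_rfl).le))

variable {n r : ℕ} {B : BB n r}

theorem kill (F : Fr B) (k : Fin r → ℝ) (x M : ℝ) {g : (Fin r → ℂ) → ℂ}
    (h1 : ∀ a b, g (a + b) = g a + g b) (h2 : ∀ (c : ℂ) a, g (c • a) = c * g a) :
    ∀ᶠ T : ℝ in atTop, ‖g (F.p (x + T * I))‖ ≤ M → ‖g (rc ((2 * T) • k))‖ ≤ M →
      ∀ α β γ : ℂ, g (α • rc (zr F.l) + β • rc (zr F.v) + γ • rc k) = 0 := by
  have hD : (F.D : ℂ) ≠ 0 := ofReal_ne_zero.2 F.Dpos.ne'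
  have he : (F.e : ℂ) ≠ 0 := ofReal_ne_zero.2 F.epos.ne'
  filter_upwards [quad x M (g (rc (zr F.m))) (g (rc (zr F.v)))
    (-(F.e / (2 * F.D)) * g (rc (zr F.l))), quad 0 M 0 (-2 * I * g (rc k)) 0]
    with T a1 a2 b1 b2 α β γ
  have c1 := a1 (by
    rw [Fr.p, sub_eq_add_neg, ← neg_smul, h1, h1, h2, h2] at b1
    convert b1 using 2
    ring)
  have c2 := a2 (by
    have : rc ((2 * T) • k) = (2 * T : ℂ) • rc k := funext fun i => by simp [rc]
    rw [this, h2] at b2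
    convert b2 using 2
    push_cast
    linear_combination (-2 * T * g (rc k)) * I_mul_I)
  have c3 : g (rc (zr F.l)) = 0 := by simpa [hD, he] using c1.2
  have c4 : g (rc k) = 0 := by simpa using c2.1
  rw [h1, h1, h2, h2, h2, c1.1, c3, c4]
  simp

namespace Rf

variable {R : Rf B} {K : R.Ch} {p q : Cm (n + n + 1)}

theorem Ch.kill (hp : K.Tp p) (hq : K.Tp q) (F : Fr B) (k : Fin r → ℝ) (x M : ℝ) :
    ∀ᶠ T : ℝ in atTop, ∀ y ∈ Ng (n + n + 1), K.cc * Complex.exp (K.μ y) = K.tt T →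
      ‖K.g T y p q (F.p (x + T * I))‖ ≤ M → ‖K.g T y p q (rc ((2 * T) • k))‖ ≤ M →
      ∀ α β γ : ℂ, K.g T y p q (α • rc (zr F.l) + β • rc (zr F.v) + γ • rc k) = 0 := by
  obtain ⟨m, y₀, h1, h2⟩ := Ch.fin hp hq
  have t0 := Ch.tor (K := K) le_rfl hp.1 hq.1
  have h3 := fun j => Ch.memW le_rfl hp hq (h1 j).1 (h1 j).2
  filter_upwards [eventually_ge_atTop R.T₁, eventually_all.2 fun j =>
    Pt.kill F k x M (g := K.g R.T₁ (y₀ j) p q) (t0.gf_add (h3 j)) (t0.gf_smul (h3 j))]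
    with T hT h4 y hy h
  obtain ⟨j, hj⟩ := h2 T hT y hy h
  rw [hj]
  exact h4 j

theorem Ch.eq_g {T : ℝ} (hT : R.T₁ ≤ T) (L : Cm (n + n) →L[ℝ] Cm (n + n + 1))
    (y₀ : Cm (n + n + 1)) {Φ : Cm (n + n) → (R.Y T).V.X} {v p q : Cm (n + n)} (hp : K.Tp (L p))
    (hq : K.Tp (L q)) (hy : y₀ + L v ∈ Ng (n + n + 1))
    (h : K.cc * Complex.exp (K.μ (y₀ + L v)) = K.tt T)
    (hs : ∀ s t : ℝ, SmA (n + n) Φ (v + s • p + t • q))
    (he : ∀ s t : ℝ, R.i T (Φ (v + s • p + t • q)) = K.Λ (y₀ + L (v + s • p + t • q)))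
    {u : Fs (R.Y T).V} (hu : Cl2 (R.Y T).V u) :
    K.g T (y₀ + L v) (L p) (L q) ((R.Y T).m.c u) = Pe Φ v p q u := by
  have t0 := Ch.tor (K := K) hT hp.1 hq.1
  have hW := Ch.memW hT hp hq hy h
  have h1 := fun s t => t0.sm _ (t0.mem hW s t)
  rw [Ch.g, t0.gf_eq hW hu, ← Pe_aff y₀ L h1]
  refine Pe_plane (fun s t => SmA.comp_left (Φ := fun y => R.Ψ T (K.Λ y))
    (ψ := fun y => y₀ + L y) ?_ (contDiffAt_const.add L.contDiff.contDiffAt)) hs
    (fun s t => by rw [← he, (R.spec hT).2.2.2.1]) u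
  simpa only [map_add, map_smul, add_assoc] using h1 s t

end Rf

end Vale.Agent.P301Z.Pt
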