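import Vale.Agent.P301Z.Pt.Pf

/-!
# P301, periods: the period functional on classes, transport between fibres
-/

open scoped Manifold ContDiff Topology Matrix Pointwise
open Filter MeasureTheory Set
open Vale.Agent.P272.K Vale.Agent.P299.IX Vale.Agent.P299.IX.Fock Vale.Agent.P281Z.Hg
open Vale.Agent.P281Z (Mf)
open Vale.Agent.P301Z.Lat

noncomputable section

namespace Vale.Agent.P301Z.Pt

variable {a b d d' : ℕ}

theorem fd_line {F G : Cm a → Cm d} {y p : Cm a} (hF : DifferentiableAt ℝ F y)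
    (hG : DifferentiableAt ℝ G y) (h : ∀ s : ℝ, F (y + s • p) = G (y + s • p)) :
    fderiv ℝ F y p = fderiv ℝ G y p := by
  rw [← hF.lineDeriv_eq_fderiv, ← hG.lineDeriv_eq_fderiv, lineDeriv, lineDeriv, funext h]

section top
variable {Y : Type} [TopologicalSpace Y] [ChartedSpace (Cm d) Y] {Φ Φ' : Cm a → Y}
  {x y p q : Cm a}

theorem e2_plane (h : SmA d Φ y) (h' : SmA d Φ' y)
    (hp : ∀ s : ℝ, Φ (y + s • p) = Φ' (y + s • p)) (hq : ∀ s : ℝ, Φ (y + s • q) = Φ' (y + s • q))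
    (u : SF d Y) : e2 (pf Φ u y) p q = e2 (pf Φ' u y) p q := by
  have h0 : Φ y = Φ' y := by simpa using hp 0
  have k1 := (h.sm _ (ca _)).differentiableAt (by simp)
  have k2 := (h'.sm (chartAt (Cm d) (Φ y)) (by rw [← h0]; exact ca _)).differentiableAt (by simp)
  rw [e2_pf h, e2_pf h', ← h0, fd_line k1 k2 fun s => by rw [hp s],
    fd_line k1 k2 fun s => by rw [hq s]]

theorem Pe_plane (h : ∀ s t : ℝ, SmA d Φ (x + s • p + t • q))
    (h' : ∀ s t : ℝ, SmA d Φ' (x + s • p + t • q))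
    (he : ∀ s t : ℝ, Φ (x + s • p + t • q) = Φ' (x + s • p + t • q)) (u : SF d Y) :
    Pe Φ x p q u = Pe Φ' x p q u := by
  refine integral_congr_ae (Eventually.of_forall fun z => ?_)
  refine e2_plane (h _ _) (h' _ _) (fun s => ?_) (fun s => ?_) u
  · have : x + z 0 • p + z 1 • q + s • p = x + (z 0 + s) • p + z 1 • q := by module
    rw [this, he]
  · have : x + z 0 • p + z 1 • q + s • q = x + z 0 • p + (z 1 + s) • q := by module
    rw [this, he]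

theorem Pe_const (c : Y) (u : SF d Y) : Pe (fun _ : Cm a => c) x p q u = 0 := by
  have : ∀ y : Cm a, e2 (pf (fun _ : Cm a => c) u y) p q = 0 := fun y => by
    rw [e2_pf ⟨continuousAt_const, fun _ _ => contDiffAt_const⟩]
    have h0 : cx (0 : Cm d) = 0 := by
      ext l
      rw [← cxL_apply, map_zero]
      rfl
    simp [e2, h0, iotV]
  simp only [Pe, avg, this, integral_zero]

theorem Pe_aff (x₀ : Cm a) (L : Cm b →L[ℝ] Cm a) {x p q : Cm b}
    (h : ∀ s t : ℝ, SmA d Φ (x₀ + L x + s • L p + t • L q)) (u : SF d Y) :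
    Pe (fun y => Φ (x₀ + L y)) x p q u = Pe Φ (x₀ + L x) (L p) (L q) u := by
  refine integral_congr_ae (Eventually.of_forall fun z => ?_)
  have e : x₀ + L (x + z 0 • p + z 1 • q) = x₀ + L x + z 0 • L p + z 1 • L q := by
    simp only [map_add, map_smul, add_assoc]
  have hψ : ContDiffAt ℝ ∞ (fun y => x₀ + L y) (x + z 0 • p + z 1 • q) :=
    contDiffAt_const.add L.contDiff.contDiffAt
  have hd : fderiv ℝ (fun y => x₀ + L y) (x + z 0 • p + z 1 • q) = L :=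
    (L.hasFDerivAt.const_add x₀).fderiv
  show e2 (pf (fun y => Φ (x₀ + L y)) u _) p q = e2 (pf Φ u _) _ _
  rw [pf_comp (ψ := fun y => x₀ + L y) (e ▸ h _ _) hψ, e2_pb (hψ.differentiableAt (by simp)), hd,
    e]

theorem Pe_shift {w : Cm a} (h : ∀ s t : ℝ, SmA d Φ (x + w + s • p + t • q))
    (hw : ∀ y, Φ (y + w) = Φ y) (u : SF d Y) : Pe Φ (x + w) p q u = Pe Φ x p q u := by
  refine integral_congr_ae (Eventually.of_forall fun z => ?_)
  have e : x + w + z 0 • p + z 1 • q = x + z 0 • p + z 1 • q + w := by abel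
  show e2 (pf Φ u _) p q = e2 (pf Φ u _) p q
  rw [e, pf_shift (e ▸ h _ _) (Eventually.of_forall hw)]

theorem Pe_pb {Y' : Type} [TopologicalSpace Y'] [ChartedSpace (Cm d') Y'] {g : Y → Y'}
    (h : ∀ s t : ℝ, SmA d Φ (x + s • p + t • q)) (hg : Smo d d' g) {T : SF d' Y' → SF d Y}
    (hT : IsPb g T) (u : SF d' Y') : Pe Φ x p q (T u) = Pe (fun y => g (Φ y)) x p q u := by
  refine integral_congr_ae (Eventually.of_forall fun z => ?_)
  show e2 (pf Φ _ _) p q = e2 (pf _ u _) p q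
  rw [pf_pb (h _ _) hg hT]

end top

/-- the largest invariant subset -/
def sat (A : Set (Cm a)) (p q : Cm a) : Set (Cm a) := {y | ∀ s t : ℝ, y + s • p + t • q ∈ A}

theorem per_int {A : Set (Cm a)} {p : Cm a} (hp : ∀ y, y + p ∈ A ↔ y ∈ A) (k : ℤ) (y : Cm a) :
    y + (k : ℝ) • p ∈ A ↔ y ∈ A := by
  induction k using Int.induction_on with
  | zero => simp
  | succ k ih =>
    rw [← ih, ← hp (y + ((k : ℤ) : ℝ) • p)]
    push_cast
    rw [add_smul, one_smul, add_assoc]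
  | pred k ih =>
    rw [← ih, ← hp (y + _)]
    push_cast
    rw [sub_smul, one_smul, add_assoc, sub_add_cancel]

theorem sat_open {A : Set (Cm a)} {p q : Cm a} (hA : IsOpen A) (hp : ∀ y, y + p ∈ A ↔ y ∈ A)
    (hq : ∀ y, y + q ∈ A ↔ y ∈ A) : IsOpen (sat A p q) := by
  have hK : IsCompact ((fun z : ℝ × ℝ => -(z.1 • p + z.2 • q)) '' (Icc 0 1 ×ˢ Icc 0 1)) :=
    (isCompact_Icc.prod isCompact_Icc).image (by fun_prop)
  rw [← isClosed_compl_iff]
  convert hA.isClosed_compl.add_right_of_isCompact hK using 1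
  ext y
  simp only [sat, mem_compl_iff, mem_ofPred_eq, not_forall, Set.mem_add, mem_image, mem_prod]
  constructor
  · rintro ⟨s, t, h⟩
    refine ⟨y + Int.fract s • p + Int.fract t • q, fun h' => h ?_, _,
      ⟨(Int.fract s, Int.fract t), ⟨⟨Int.fract_nonneg s, (Int.fract_lt_one s).le⟩,
        Int.fract_nonneg t, (Int.fract_lt_one t).le⟩, rfl⟩, by module⟩
    have e : y + s • p + t • q =
        y + Int.fract s • p + Int.fract t • q + (⌊s⌋ : ℝ) • p + (⌊t⌋ : ℝ) • q := by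
      conv_lhs => rw [← Int.fract_add_floor s, ← Int.fract_add_floor t]
      module
    rw [e, per_int hq, per_int hp]
    exact h'
  · rintro ⟨z, hz, _, ⟨w, -, rfl⟩, rfl⟩
    refine ⟨w.1, w.2, fun h => hz ?_⟩
    convert h using 1
    module

theorem sat_sub {A : Set (Cm a)} {p q y : Cm a} (h : y ∈ sat A p q) : y ∈ A := by
  simpa using h 0 0

theorem tor_sat {V : Mf d} {Φ : Cm a → V.X} {A : Set (Cm a)} {p q : Cm a} (hA : IsOpen A)
    (hp : ∀ y, y + p ∈ A ↔ y ∈ A) (hq : ∀ y, y + q ∈ A ↔ y ∈ A) (hs : ∀ y ∈ A, SmA d Φ y)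
    (pp : ∀ y, Φ (y + p) = Φ y) (pq : ∀ y, Φ (y + q) = Φ y) : Tor d Φ (sat A p q) p q where
  opn := sat_open hA hp hq
  sm y hy := hs y (sat_sub hy)
  tp y hy s s' t := by
    convert hy (s + s') t using 1
    module
  tq y hy s s' t := by
    convert hy s' (s + t) using 1
    module
  pp y _ := pp y
  pq y _ := pq y

variable {n r : ℕ} {B : BB n r}

/-- the period as a function of the class -/
def gf (Y : MK B) (Φ : Cm a → Y.V.X) (x p q : Cm a) (k : Fin r → ℂ) : ℂ :=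
  Pe Φ x p q (Y.m.onto k).choose

theorem cl2_sub {V : Mf d} {u v : Fs V} (hu : Cl2 V u) (hv : Cl2 V v) : Cl2 V (u - v) :=
  ⟨by rw [map_sub, hu.1, hv.1, sub_zero], by rw [map_sub, hu.2, hv.2]⟩

theorem cl2_add {V : Mf d} {u v : Fs V} (hu : Cl2 V u) (hv : Cl2 V v) : Cl2 V (u + v) :=
  ⟨by rw [map_add, hu.1, hv.1, add_zero], by rw [map_add, hu.2, hv.2]⟩

theorem cl2_smul {V : Mf d} (c : ℂ) {u : Fs V} (hu : Cl2 V u) : Cl2 V (c • u) :=
  ⟨by rw [map_smul, hu.1, smul_zero], by rw [map_smul, hu.2]⟩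

theorem cl2_cj {V : Mf d} {u : Fs V} (hu : Cl2 V u) : Cl2 V ((dR V).cj u) :=
  ⟨by rw [← (dR_ok V).cjd, hu.1, map_zero], by rw [← (dR_ok V).cjdg, hu.2]⟩

variable {Y : MK B} {Φ : Cm a → Y.V.X} {O : Set (Cm a)} {x p q : Cm a}

theorem Tor.gf_eq (h : Tor (n + n) Φ O p q) (hx : x ∈ O) {u : Fs Y.V} (hu : Cl2 Y.V u) :
    gf Y Φ x p q (Y.m.c u) = Pe Φ x p q u := by
  obtain ⟨h1, h2⟩ := (Y.m.onto (Y.m.c u)).choose_spec
  obtain ⟨β, -, hβ⟩ := (Y.m.ker _ (cl2_sub h1 hu)).1 (by rw [map_sub, h2, sub_self])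
  rw [gf, sub_eq_iff_eq_add.1 hβ, h.add hx, h.exact hx, zero_add]

theorem Tor.gf_add (h : Tor (n + n) Φ O p q) (hx : x ∈ O) (k k' : Fin r → ℂ) :
    gf Y Φ x p q (k + k') = gf Y Φ x p q k + gf Y Φ x p q k' := by
  obtain ⟨u, hu, rfl⟩ := Y.m.onto k
  obtain ⟨u', hu', rfl⟩ := Y.m.onto k'
  rw [← map_add, h.gf_eq hx (cl2_add hu hu'), h.gf_eq hx hu, h.gf_eq hx hu', h.add hx]

theorem Tor.gf_smul (h : Tor (n + n) Φ O p q) (hx : x ∈ O) (c : ℂ) (k : Fin r → ℂ) :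
    gf Y Φ x p q (c • k) = c * gf Y Φ x p q k := by
  obtain ⟨u, hu, rfl⟩ := Y.m.onto k
  rw [← map_smul, h.gf_eq hx (cl2_smul c hu), h.gf_eq hx hu, Pe_smul]

theorem Tor.gf_star (h : Tor (n + n) Φ O p q) (hx : x ∈ O) (k : Fin r → ℂ) :
    gf Y Φ x p q (star k) = star (gf Y Φ x p q k) := by
  obtain ⟨u, hu, rfl⟩ := Y.m.onto k
  rw [← Y.m.cj u hu, h.gf_eq hx (cl2_cj hu), h.gf_eq hx hu, h.cj hx]

theorem Tor.gf_move (h : Tor (n + n) Φ O p q) {w : Cm a}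
    (hx : ∀ s ∈ Icc (0 : ℝ) 1, x + s • w ∈ O) : gf Y Φ (x + w) p q = gf Y Φ x p q :=
  funext fun k => h.move hx (Y.m.onto k).choose_spec.1.1

theorem ex_pb {V : Mf d} {V' : Mf d'} {f : V.X → V'.X} (hf : Smo d d' f) :
    ∃ T : Fs V' →ₗ[ℂ] Fs V, IsPb f T ∧ ∀ u, Cl2 V' u → Cl2 V (T u) := by
  obtain ⟨⟨T, hT⟩, -, -, h⟩ := pb1T d V.X d' V'.X f hf
  obtain ⟨h1, h2, -⟩ := h T _ _ hT (dR_real V) (dR_real V')
  exact ⟨T, hT, fun u hu => ⟨by rw [← h1, hu.1, map_zero], by rw [← h2, hu.2]⟩⟩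

/-- transport of the period functional along a map which respects the markings -/
theorem Tor.gf_mor {Y' : MK B} {f : Y.V.X → Y'.V.X} (hf : Y.Mor Y' f) {Φ' : Cm a → Y'.V.X}
    {O' : Set (Cm a)} (h : Tor (n + n) Φ O p q) (hx : x ∈ O) (h' : Tor (n + n) Φ' O' p q)
    (hx' : x ∈ O') (he : ∀ s t : ℝ, f (Φ (x + s • p + t • q)) = Φ' (x + s • p + t • q)) :
    gf Y Φ x p q = gf Y' Φ' x p q := by
  funext k
  obtain ⟨u, hu, rfl⟩ := Y'.m.onto k
  obtain ⟨T, hT, hc⟩ := ex_pb hf.1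
  rw [h'.gf_eq hx' hu, ← hf.2 T hT u hu, h.gf_eq hx (hc u hu),
    Pe_pb (fun s t => h.sm _ (h.mem hx s t)) hf.1 hT]
  exact Pe_plane (fun s t => (h.sm _ (h.mem hx s t)).comp (smP_of hf.1 _))
    (fun s t => h'.sm _ (h'.mem hx' s t)) he u

end Vale.Agent.P301Z.Pt
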