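import Vale.Agent.P281Z.Hg.K1a
import Vale.Agent.P281Z.Hg.K1b
import Vale.Agent.P281Z.Hg.F1a
import Vale.Agent.P281Z.Hg.F1b

/-!
# P301, periods: values of forms on real tangent vectors
-/

open scoped ContDiff Topology Matrix
open Filter
open Vale.Agent.P272.K Vale.Agent.P299.IX Vale.Agent.P299.IX.Fock Vale.Agent.P281Z.Hg

noncomputable section

namespace Vale.Agent.P301Z.Pt

variable {d a b : ℕ}

/-- the value of the part of degree one on the real vector `v` -/
def e1 (u : Fo d) (v : Cm d) : ℂ := (iotV (cx v) *ᵥ u) ∅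

/-- the value of the part of degree two on the real vectors `v`, `w` -/
def e2 (u : Fo d) (v w : Cm d) : ℂ := (iotV (cx w) *ᵥ (iotV (cx v) *ᵥ u)) ∅

theorem kA : K1a := k1a f1a f1b

theorem lr_empty (J : Matrix (Fin a) (Fin b) ℂ) (u : Fk b) : (lr J *ᵥ u) ∅ = u ∅ := by
  induction u using F1aH.fk_ind with
  | h0 => rw [F1aH.lr_ev]; simp [ev]
  | he l u _ =>
    rw [Matrix.mulVec_mulVec, F1aH.lr_eps, ← Matrix.mulVec_mulVec, epsV_mulVec_empty,
      eps_mulVec_empty]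
  | ha u v h1 h2 => rw [Matrix.mulVec_add, Pi.add_apply, Pi.add_apply, h1, h2]
  | hs c u h => rw [Matrix.mulVec_smul, Pi.smul_apply, Pi.smul_apply, h]

theorem iotV_lr (J : Matrix (Fin a) (Fin b) ℂ) (v : Fin a → ℂ) (u : Fk b) :
    iotV v *ᵥ (lr J *ᵥ u) = lr J *ᵥ (iotV (v ᵥ* J) *ᵥ u) := by
  induction u using F1aH.fk_ind with
  | h0 => rw [F1aH.lr_ev, iotV_ev_empty, iotV_ev_empty, Matrix.mulVec_zero]
  | he l u ih =>
    have h1 := congrArg (· *ᵥ (lr J *ᵥ u)) (iotV_epsV v (fun q => J q l))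
    simp only [Matrix.add_mulVec, ← Matrix.mulVec_mulVec, Matrix.smul_mulVec,
      Matrix.one_mulVec] at h1
    have h2 := congrArg (· *ᵥ u) (iotV_eps (v ᵥ* J) l)
    simp only [Matrix.add_mulVec, ← Matrix.mulVec_mulVec, Matrix.smul_mulVec,
      Matrix.one_mulVec] at h2
    have h3 : ∀ x : Fk b, lr J *ᵥ (eps l *ᵥ x) = epsV (fun q => J q l) *ᵥ (lr J *ᵥ x) := fun x => by
      rw [Matrix.mulVec_mulVec, F1aH.lr_eps, ← Matrix.mulVec_mulVec]
    rw [h3, eq_sub_of_add_eq h1, eq_sub_of_add_eq h2, ih, Matrix.mulVec_sub, Matrix.mulVec_smul,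
      h3]
    rfl
  | ha u v h1 h2 => simp only [Matrix.mulVec_add, h1, h2]
  | hs c u h => simp only [Matrix.mulVec_smul, h]

/-- the coordinates as real linear forms -/
def cxL (l : Fin (d + d)) : Cm d →L[ℝ] ℂ :=
  Fin.addCases (motive := fun _ => Cm d →L[ℝ] ℂ) (fun j => ContinuousLinearMap.proj j)
    (fun j => (Complex.conjCLE : ℂ →L[ℝ] ℂ).comp (ContinuousLinearMap.proj j)) l

theorem cxL_apply (l : Fin (d + d)) (v : Cm d) : cxL l v = cx v l := by
  induction l using Fin.addCases with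
  | left j => simp only [cxL, cx, Fin.addCases_left]; rfl
  | right j => simp only [cxL, cx, Fin.addCases_right]; rfl

theorem cx_jc {ψ : Cm a → Cm b} {z : Cm a} (h : DifferentiableAt ℝ ψ z) (v : Cm a) :
    cx v ᵥ* jc ψ z = cx (fderiv ℝ ψ z v) := by
  ext l
  have h1 : HasFDerivAt (fun y => cx (ψ y) l) ((cxL l).comp (fderiv ℝ ψ z)) z := by
    have := (cxL l).hasFDerivAt.comp z h.hasFDerivAt
    simpa only [Function.comp_def, cxL_apply] using this
  have h2 := kA.fd v h1.differentiableAt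
  rw [h1.fderiv, ContinuousLinearMap.comp_apply, cxL_apply] at h2
  rw [h2]
  rfl

theorem e1_pb {ψ : Cm a → Cm b} {z : Cm a} (h : DifferentiableAt ℝ ψ z) (u : Fo b) (v : Cm a) :
    e1 (lr (jc ψ z) *ᵥ u) v = e1 u (fderiv ℝ ψ z v) := by
  rw [e1, iotV_lr, lr_empty, cx_jc h, e1]

theorem e2_pb {ψ : Cm a → Cm b} {z : Cm a} (h : DifferentiableAt ℝ ψ z) (u : Fo b) (v w : Cm a) :
    e2 (lr (jc ψ z) *ᵥ u) v w = e2 u (fderiv ℝ ψ z v) (fderiv ℝ ψ z w) := by
  rw [e2, iotV_lr, iotV_lr, lr_empty, cx_jc h, cx_jc h, e2]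

theorem e2_add (u u' : Fo d) (v w : Cm d) : e2 (u + u') v w = e2 u v w + e2 u' v w := by
  simp only [e2, Matrix.mulVec_add, Pi.add_apply]

theorem e2_smul (c : ℂ) (u : Fo d) (v w : Cm d) : e2 (c • u) v w = c * e2 u v w := by
  simp only [e2, Matrix.mulVec_smul, Pi.smul_apply, smul_eq_mul]

theorem e2_sub (u u' : Fo d) (v w : Cm d) : e2 (u - u') v w = e2 u v w - e2 u' v w := by
  simp only [e2, Matrix.mulVec_sub, Pi.sub_apply]

theorem e2_zero (v w : Cm d) : e2 (0 : Fo d) v w = 0 := by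
  simp only [e2, Matrix.mulVec_zero, Pi.zero_apply]

/-- evaluation of `A u` at the empty index as a linear form -/
def evL (A : Fm d) : Fo d →L[ℝ] ℂ :=
  LinearMap.toContinuousLinearMap
    { toFun := fun u => (A *ᵥ u) ∅
      map_add' := fun u v => by rw [Matrix.mulVec_add, Pi.add_apply]
      map_smul' := fun c u => by
        rw [RingHom.id_apply, ← Complex.coe_smul, Matrix.mulVec_smul, Pi.smul_apply,
          Complex.coe_smul] }

theorem evL_apply (A : Fm d) (u : Fo d) : evL A u = (A *ᵥ u) ∅ := rfl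

theorem e1_eq (u : Fo d) (v : Cm d) : e1 u v = evL (iotV (cx v)) u := rfl

theorem e2_eq (u : Fo d) (v w : Cm d) : e2 u v w = evL (iotV (cx w) * iotV (cx v)) u := by
  rw [e2, evL_apply, Matrix.mulVec_mulVec]

theorem fd_sum {u : Cm d → Fo d} {z : Cm d} (h : DifferentiableAt ℝ u z) (v : Cm d) :
    fderiv ℝ u z v = ∑ c, cx v c • Dv c u z := by
  ext I
  have h1 : HasFDerivAt (fun y => u y I)
      ((ContinuousLinearMap.proj (R := ℝ) (φ := fun _ : FI (d + d) => ℂ) I).comp (fderiv ℝ u z))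
      z := (ContinuousLinearMap.proj (R := ℝ) (φ := fun _ : FI (d + d) => ℂ) I).hasFDerivAt.comp z
        h.hasFDerivAt
  have h2 := kA.fd v h1.differentiableAt
  rw [h1.fderiv] at h2
  rw [Finset.sum_apply]
  exact h2

/-- the formula of Cartan for constant fields -/
theorem cartan {u : Cm d → Fo d} {z : Cm d} (h : DifferentiableAt ℝ u z) (v : Cm d) :
    iotV (cx v) *ᵥ dT u z =
      fderiv ℝ u z v - ∑ c, eps c *ᵥ (iotV (cx v) *ᵥ Dv c u z) := by
  rw [fd_sum h, dT, Matrix.mulVec_sum, ← Finset.sum_sub_distrib]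
  refine Finset.sum_congr rfl fun c _ => ?_
  have h2 := congrArg (· *ᵥ Dv c u z) (iotV_eps (cx v) c)
  simp only [Matrix.add_mulVec, ← Matrix.mulVec_mulVec, Matrix.smul_mulVec,
    Matrix.one_mulVec] at h2
  exact eq_sub_of_add_eq h2

theorem iot_sum_eps (v : Cm d) (x : Fin (d + d) → Fo d) :
    iotV (cx v) *ᵥ ∑ c, eps c *ᵥ x c =
      ∑ c, cx v c • x c - ∑ c, eps c *ᵥ (iotV (cx v) *ᵥ x c) := by
  rw [Matrix.mulVec_sum, ← Finset.sum_sub_distrib]
  refine Finset.sum_congr rfl fun c _ => ?_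
  have h2 := congrArg (· *ᵥ x c) (iotV_eps (cx v) c)
  simp only [Matrix.add_mulVec, ← Matrix.mulVec_mulVec, Matrix.smul_mulVec,
    Matrix.one_mulVec] at h2
  exact eq_sub_of_add_eq h2

theorem sum_eps_empty (x : Fin (d + d) → Fo d) : (∑ c, eps c *ᵥ x c) ∅ = 0 := by
  rw [Finset.sum_apply]
  exact Finset.sum_eq_zero fun c _ => eps_mulVec_empty c _

theorem mulVec_sum_smul (A : Fm d) (t : Fin (d + d) → ℂ) (x : Fin (d + d) → Fo d) :
    ∑ c, t c • (A *ᵥ x c) = A *ᵥ ∑ c, t c • x c := by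
  rw [Matrix.mulVec_sum]
  exact Finset.sum_congr rfl fun c _ => (Matrix.mulVec_smul _ _ _).symm

/-- the exterior derivative of a form of degree one -/
theorem e2_dT {u : Cm d → Fo d} {z : Cm d} (h : DifferentiableAt ℝ u z) (v w : Cm d) :
    e2 (dT u z) v w = e1 (fderiv ℝ u z v) w - e1 (fderiv ℝ u z w) v := by
  rw [e2, cartan h, Matrix.mulVec_sub, iot_sum_eps, mulVec_sum_smul, ← fd_sum h]
  simp only [Pi.sub_apply, sum_eps_empty, sub_zero, e1]

/-- closed forms of degree two -/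
theorem e2_closed {u : Cm d → Fo d} {z : Cm d} (h : DifferentiableAt ℝ u z) (h0 : dT u z = 0)
    (r v w : Cm d) :
    e2 (fderiv ℝ u z r) v w - e2 (fderiv ℝ u z v) r w + e2 (fderiv ℝ u z w) r v = 0 := by
  have h1 := cartan h r
  rw [h0, Matrix.mulVec_zero] at h1
  have h2 := congrArg (fun x => (iotV (cx w) *ᵥ (iotV (cx v) *ᵥ x)) ∅) h1
  simp only [Matrix.mulVec_zero, Pi.zero_apply] at h2
  rw [Matrix.mulVec_sub, iot_sum_eps, mulVec_sum_smul, ← fd_sum h, Matrix.mulVec_sub,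
    Matrix.mulVec_sub, iot_sum_eps] at h2
  simp only [Matrix.mulVec_mulVec (Dv _ u z) (iotV (cx v)) (iotV (cx r))] at h2
  rw [mulVec_sum_smul, ← fd_sum h, ← Matrix.mulVec_mulVec] at h2
  simp only [Pi.sub_apply, sum_eps_empty, sub_zero] at h2
  simp only [e2]
  linear_combination -h2

theorem cx_swm (v : Cm d) (u : Fo d) : cjv (iotV (cx v) *ᵥ u) = iotV (cx v) *ᵥ cjv u := by
  have h0 : ∀ x : Fo d, iotV (cx v) *ᵥ x =
      ∑ j, v j • (iot (hl j) *ᵥ x) + ∑ j, star (v j) • (iot (ah j) *ᵥ x) := fun x => by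
    rw [iotV, Matrix.sum_mulVec, Fin.sum_univ_add]
    simp only [Matrix.smul_mulVec, cx, Fin.addCases_left, Fin.addCases_right, hl, ah]
  have hs : ∀ (s : Finset (Fin d)) (x : Fin d → Fo d),
      cjv (∑ j ∈ s, x j) = ∑ j ∈ s, cjv (x j) := fun s x => by
    induction s using Finset.induction_on with
    | empty => simp [cjv]
    | insert j s hj ih => rw [Finset.sum_insert hj, Finset.sum_insert hj, f1b.cjv_add, ih]
  rw [h0, h0, f1b.cjv_add, hs, hs, add_comm]
  simp only [f1b.cjv_smul, f1b.cjv_ihl, f1b.cjv_iah, star_star]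

theorem cjv_empty (u : Fo d) : cjv u ∅ = star (u ∅) := lr_empty (swm d) (star u)

theorem e2_cjv (u : Fo d) (v w : Cm d) : e2 (cjv u) v w = star (e2 u v w) := by
  rw [e2, ← cx_swm, ← cx_swm, cjv_empty, e2]

end Vale.Agent.P301Z.Pt
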