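import Vale.Agent.P301Z.Pt.Ev
import Mathlib.MeasureTheory.Integral.DivergenceTheorem

/-!
# P301, periods: means over parallelograms, the theorem of Stokes
-/

open scoped ContDiff Topology Matrix
open Filter MeasureTheory Set
open Vale.Agent.P272.K Vale.Agent.P299.IX Vale.Agent.P299.IX.Fock Vale.Agent.P281Z.Hg

noncomputable section

namespace Vale.Agent.P301Z.Pt

section gen
variable {E : Type} [NormedAddCommGroup E] [NormedSpace ℝ E]

/-- the mean of `F` over the parallelogram spanned by `a`, `b` at `x` -/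
def avg (F : E → ℂ) (x a b : E) : ℂ :=
  ∫ p in Icc (0 : Fin 2 → ℝ) 1, F (x + p 0 • a + p 1 • b)

/-- the linear parametrisation -/
def lin {k : ℕ} (v : Fin k → E) : (Fin k → ℝ) →L[ℝ] E :=
  ∑ i, (ContinuousLinearMap.proj i : (Fin k → ℝ) →L[ℝ] ℝ).smulRight (v i)

theorem lin_apply {k : ℕ} (v : Fin k → E) (p : Fin k → ℝ) : lin v p = ∑ i, p i • v i := by
  simp [lin]

theorem lin_single {k : ℕ} (v : Fin k → E) (i : Fin k) : lin v (Pi.single i 1) = v i := by
  rw [lin_apply, Finset.sum_eq_single i (fun j _ h => by rw [Pi.single_eq_of_ne h, zero_smul])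
    (fun h => absurd (Finset.mem_univ i) h), Pi.single_eq_same, one_smul]

theorem has_lin {k : ℕ} (v : Fin k → E) (x : E) {f : E → ℂ} {p : Fin k → ℝ}
    (h : DifferentiableAt ℝ f (x + lin v p)) :
    HasFDerivAt (fun q => f (x + lin v q)) ((fderiv ℝ f (x + lin v p)).comp (lin v)) p :=
  HasFDerivAt.comp p (f := fun q => x + lin v q) h.hasFDerivAt ((lin v).hasFDerivAt.const_add x)

theorem mem01 {k : ℕ} {p : Fin k → ℝ} (h : p ∈ Icc (0 : Fin k → ℝ) 1) (i : Fin k) :
    p i ∈ Icc (0 : ℝ) 1 := ⟨h.1 i, h.2 i⟩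

theorem in2 (c : ℝ) (p : Fin 1 → ℝ) :
    (Fin.insertNth 0 c p : Fin 2 → ℝ) = ![c, p 0] ∧
      (Fin.insertNth 1 c p : Fin 2 → ℝ) = ![p 0, c] := by
  constructor <;> (ext i; fin_cases i <;> rfl)

theorem in3 (c : ℝ) (p : Fin 2 → ℝ) :
    (Fin.insertNth 0 c p : Fin 3 → ℝ) = ![c, p 0, p 1] ∧
      (Fin.insertNth 1 c p : Fin 3 → ℝ) = ![p 0, c, p 1] ∧
      (Fin.insertNth 2 c p : Fin 3 → ℝ) = ![p 0, p 1, c] := by
  refine ⟨?_, ?_, ?_⟩ <;> (ext i; fin_cases i <;> rfl)

theorem stokes2 {f g : E → ℂ} {x a b : E}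
    (hf : ∀ s ∈ Icc (0 : ℝ) 1, ∀ t ∈ Icc (0 : ℝ) 1, ContDiffAt ℝ 1 f (x + s • a + t • b))
    (hg : ∀ s ∈ Icc (0 : ℝ) 1, ∀ t ∈ Icc (0 : ℝ) 1, ContDiffAt ℝ 1 g (x + s • a + t • b))
    (pf : ∀ t ∈ Icc (0 : ℝ) 1, f (x + a + t • b) = f (x + t • b))
    (pg : ∀ s ∈ Icc (0 : ℝ) 1, g (x + s • a + b) = g (x + s • a)) :
    avg (fun y => fderiv ℝ f y a - fderiv ℝ g y b) x a b = 0 := by
  have e : ∀ p : Fin 2 → ℝ, x + lin ![a, b] p = x + p 0 • a + p 1 • b := fun p => by
    rw [lin_apply, Fin.sum_univ_two, add_assoc]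
    rfl
  have hF : ∀ p ∈ Icc (0 : Fin 2 → ℝ) 1, ∀ i : Fin 2,
      ContDiffAt ℝ 1 (![f, fun y => -g y] i) (x + lin ![a, b] p) := fun p hp i => by
    rw [e]
    fin_cases i
    · exact hf _ (mem01 hp 0) _ (mem01 hp 1)
    · exact (hg _ (mem01 hp 0) _ (mem01 hp 1)).neg
  have hc : Continuous fun p : Fin 2 → ℝ => x + lin ![a, b] p :=
    continuous_const.add (lin _).continuous
  have key := integral_divergence_of_hasFDerivAt_off_countable' (0 : Fin 2 → ℝ) 1 zero_le_one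
    (fun i p => (![f, fun y => -g y] i) (x + lin ![a, b] p))
    (fun i p => (fderiv ℝ (![f, fun y => -g y] i) (x + lin ![a, b] p)).comp (lin ![a, b])) ∅
    countable_empty
    (fun i p hp => ((hF p hp i).continuousAt.comp (f := fun q => x + lin ![a, b] q)
      hc.continuousAt).continuousWithinAt)
    (fun p hp i => has_lin _ _ ((hF p ⟨fun j => (hp.1 j trivial).1.le,
      fun j => (hp.1 j trivial).2.le⟩ i).differentiableAt one_ne_zero))
    (ContinuousOn.integrableOn_compact isCompact_Icc (continuousOn_finsetSum _ fun i _ p hp => by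
      simp only [ContinuousLinearMap.comp_apply]
      exact ((((hF p hp i).continuousAt_fderiv one_ne_zero).comp
        (f := fun q => x + lin ![a, b] q) hc.continuousAt).clm_apply
        continuousAt_const).continuousWithinAt))
  have l : (∫ p in Icc (0 : Fin 2 → ℝ) 1, ∑ i : Fin 2,
      ((fderiv ℝ (![f, fun y => -g y] i) (x + lin ![a, b] p)).comp (lin ![a, b]))
        (Pi.single i 1)) = avg (fun y => fderiv ℝ f y a - fderiv ℝ g y b) x a b := by
    refine integral_congr_ae (Eventually.of_forall fun p => ?_)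
    simp only [ContinuousLinearMap.comp_apply, lin_single, Fin.sum_univ_two, e]
    show fderiv ℝ f _ a + fderiv ℝ (fun y => -g y) _ b = _
    rw [fderiv_fun_neg, neg_apply, sub_eq_add_neg]
  rw [← l, key, Fin.sum_univ_two]
  have m : ∀ i : Fin 2, MeasurableSet
      (Icc ((0 : Fin 2 → ℝ) ∘ Fin.succAbove i) ((1 : Fin 2 → ℝ) ∘ Fin.succAbove i)) :=
    fun _ => measurableSet_Icc
  rw [setIntegral_congr_fun (m 0) (g := fun p => f (x + lin ![a, b] (Fin.insertNth 0 0 p))),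
    setIntegral_congr_fun (m 1) (f := fun p => _)
      (g := fun p => -g (x + lin ![a, b] (Fin.insertNth 1 0 p)))]
  · simp
  · intro p hp
    have := pg (p 0) ⟨hp.1 0, hp.2 0⟩
    simp only [e, (in2 _ p).2]
    simpa using this
  · intro p hp
    have := pf (p 0) ⟨hp.1 0, hp.2 0⟩
    simp only [e, (in2 _ p).1]
    simpa using this

theorem stokes3 {f g h : E → ℂ} {x r a b : E}
    (hd : ∀ u ∈ Icc (0 : ℝ) 1, ∀ s ∈ Icc (0 : ℝ) 1, ∀ t ∈ Icc (0 : ℝ) 1,
      DifferentiableAt ℝ f (x + u • r + s • a + t • b) ∧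
      DifferentiableAt ℝ g (x + u • r + s • a + t • b) ∧
      DifferentiableAt ℝ h (x + u • r + s • a + t • b) ∧
      fderiv ℝ f (x + u • r + s • a + t • b) r - fderiv ℝ g (x + u • r + s • a + t • b) a +
        fderiv ℝ h (x + u • r + s • a + t • b) b = 0)
    (pg : ∀ u ∈ Icc (0 : ℝ) 1, ∀ t ∈ Icc (0 : ℝ) 1,
      g (x + u • r + a + t • b) = g (x + u • r + t • b))
    (ph : ∀ u ∈ Icc (0 : ℝ) 1, ∀ s ∈ Icc (0 : ℝ) 1,
      h (x + u • r + s • a + b) = h (x + u • r + s • a)) :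
    avg f (x + r) a b = avg f x a b := by
  have e : ∀ p : Fin 3 → ℝ, x + lin ![r, a, b] p = x + p 0 • r + p 1 • a + p 2 • b := fun p => by
    rw [lin_apply, Fin.sum_univ_three, add_assoc, add_assoc, add_assoc]
    rfl
  have hF : ∀ p ∈ Icc (0 : Fin 3 → ℝ) 1, ∀ i : Fin 3,
      DifferentiableAt ℝ (![f, fun y => -g y, h] i) (x + lin ![r, a, b] p) := fun p hp i => by
    rw [e]
    have := hd _ (mem01 hp 0) _ (mem01 hp 1) _ (mem01 hp 2)
    fin_cases i
    · exact this.1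
    · exact this.2.1.neg
    · exact this.2.2.1
  have hc : Continuous fun p : Fin 3 → ℝ => x + lin ![r, a, b] p :=
    continuous_const.add (lin _).continuous
  have h0 : ∀ p ∈ Icc (0 : Fin 3 → ℝ) 1, ∑ i : Fin 3,
      ((fderiv ℝ (![f, fun y => -g y, h] i) (x + lin ![r, a, b] p)).comp (lin ![r, a, b]))
        (Pi.single i 1) = 0 := fun p hp => by
    have := (hd _ (mem01 hp 0) _ (mem01 hp 1) _ (mem01 hp 2)).2.2.2
    simp only [ContinuousLinearMap.comp_apply, lin_single, Fin.sum_univ_three, e]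
    show fderiv ℝ f _ r + fderiv ℝ (fun y => -g y) _ a + fderiv ℝ h _ b = _
    rw [fderiv_fun_neg, neg_apply, ← sub_eq_add_neg, this]
  have key := integral_divergence_of_hasFDerivAt_off_countable' (0 : Fin 3 → ℝ) 1 zero_le_one
    (fun i p => (![f, fun y => -g y, h] i) (x + lin ![r, a, b] p))
    (fun i p => (fderiv ℝ (![f, fun y => -g y, h] i) (x + lin ![r, a, b] p)).comp
      (lin ![r, a, b])) ∅ countable_empty
    (fun i p hp => ((hF p hp i).continuousAt.comp (f := fun q => x + lin ![r, a, b] q)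
      hc.continuousAt).continuousWithinAt)
    (fun p hp i => has_lin _ _ (hF p ⟨fun j => (hp.1 j trivial).1.le,
      fun j => (hp.1 j trivial).2.le⟩ i))
    ((integrableOn_congr_fun h0 measurableSet_Icc).2 integrableOn_zero)
  rw [setIntegral_congr_fun measurableSet_Icc h0, integral_zero, Fin.sum_univ_three] at key
  have m : ∀ i : Fin 3, MeasurableSet
      (Icc ((0 : Fin 3 → ℝ) ∘ Fin.succAbove i) ((1 : Fin 3 → ℝ) ∘ Fin.succAbove i)) :=
    fun _ => measurableSet_Icc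
  rw [setIntegral_congr_fun (m 1) (f := fun p => _)
      (g := fun p => -g (x + lin ![r, a, b] (Fin.insertNth 1 0 p))),
    setIntegral_congr_fun (m 2) (f := fun p => _)
      (g := fun p => h (x + lin ![r, a, b] (Fin.insertNth 2 0 p)))] at key
  · have k2 : (∫ p in Icc (0 : Fin 2 → ℝ) 1, f (x + lin ![r, a, b] (Fin.insertNth 0 1 p))) -
        ∫ p in Icc (0 : Fin 2 → ℝ) 1, f (x + lin ![r, a, b] (Fin.insertNth 0 0 p)) = 0 := by
      simpa using key.symm
    simp only [e, fun c p => (in3 c p).1] at k2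
    simpa [avg, sub_eq_zero] using k2
  · intro p hp
    have := ph (p 0) ⟨hp.1 0, hp.2 0⟩ (p 1) ⟨hp.1 1, hp.2 1⟩
    simp only [e, (in3 _ p).2.2]
    simpa using this
  · intro p hp
    have := pg (p 0) ⟨hp.1 0, hp.2 0⟩ (p 1) ⟨hp.1 1, hp.2 1⟩
    simp only [e, (in3 _ p).2.1]
    simpa using this

end gen

end Vale.Agent.P301Z.Pt
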