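import Vale.Agent.P301Z.Pt.Per
import Vale.Agent.P301Z.Lat.Defs

/-!
# P301, periods: pull-back of forms along local maps, periods over two-tori
-/

open scoped Manifold ContDiff Topology Matrix
open Filter MeasureTheory Set
open Vale.Agent.P272.K Vale.Agent.P299.IX Vale.Agent.P299.IX.Fock Vale.Agent.P281Z.Hg
open Vale.Agent.P281Z (Mf)
open Vale.Agent.P301Z.Lat

noncomputable section

namespace Vale.Agent.P301Z.Pt

variable {a b d d' : ℕ}

section top
variable {Y : Type} [TopologicalSpace Y] [ChartedSpace (Cm d) Y]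
  {Y' : Type} [TopologicalSpace Y'] [ChartedSpace (Cm d') Y']

variable (d) in
/-- `Φ` is smooth at `v` -/
structure SmA (Φ : Cm a → Y) (v : Cm a) : Prop where
  cont : ContinuousAt Φ v
  sm : ∀ e : Chart d Y, At e (Φ v) → ContDiffAt ℝ ∞ (fun y => e (Φ y)) v

variable (d d') in
/-- `g` is smooth at `x` -/
structure SmP (g : Y → Y') (x : Y) : Prop where
  cont : ContinuousAt g x
  sm : ∀ (e : Chart d Y) (e' : Chart d' Y'), At e x → At e' (g x) →
    ContDiffAt ℝ ∞ (fun z => e' (g (e.symm z))) (e x)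

theorem smP_of {g : Y → Y'} (h : Smo d d' g) (x : Y) : SmP d d' g x :=
  ⟨h.cont.continuousAt, fun e e' => h.sm e e' x⟩

/-- the pull-back of the form `u` along `Φ` -/
def pf (Φ : Cm a → Y) (u : SF d Y) (v : Cm a) : Fo a :=
  pbk (fun y => chartAt (Cm d) (Φ v) (Φ y)) (vl u (chartAt (Cm d) (Φ v))) v

/-- the period of `u` over the torus spanned by `p`, `q` at `x` -/
def Pe (Φ : Cm a → Y) (x p q : Cm a) (u : SF d Y) : ℂ := avg (fun y => e2 (pf Φ u y) p q) x p q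

variable {Φ Φ' : Cm a → Y} {v : Cm a} {e : Chart d Y} {g : Y → Y'}

theorem ca (x : Y) : At (chartAt (Cm d) x) x := Pb1H.ca x

theorem SmA.near (h : ContinuousAt Φ v) (he : At e (Φ v)) : ∀ᶠ y in 𝓝 v, At e (Φ y) := by
  filter_upwards [h.eventually (e.open_source.mem_nhds he.2)] with y hy using ⟨he.1, hy⟩

theorem SmA.comp (h : SmA d Φ v) (hg : SmP d d' g (Φ v)) : SmA d' (fun y => g (Φ y)) v := by
  refine ⟨hg.cont.comp h.cont, fun e' he' => ?_⟩
  have h1 := ContDiffAt.comp (g := fun z => e' (g ((chartAt (Cm d) (Φ v)).symm z))) v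
    (hg.sm _ e' (ca _) he') (h.sm _ (ca _))
  refine h1.congr_of_eventuallyEq ?_
  filter_upwards [SmA.near h.cont (ca (d := d) (Φ v))] with y hy
  simp only [Function.comp_def, (chartAt (Cm d) (Φ v)).left_inv hy.2]

theorem SmA.comp_left {ψ : Cm b → Cm a} {z : Cm b} (h : SmA d Φ (ψ z))
    (hψ : ContDiffAt ℝ ∞ ψ z) : SmA d (fun y => Φ (ψ y)) z :=
  ⟨h.cont.comp hψ.continuousAt, fun e he =>
    ContDiffAt.comp (g := fun y => e (Φ y)) z (h.sm e he) hψ⟩

theorem pf_congr (h : Φ =ᶠ[𝓝 v] Φ') (u : SF d Y) : pf Φ u v = pf Φ' u v := by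
  have h0 := h.eq_of_nhds
  rw [pf, pf, pbk, pbk, h0, k1b'.jc_congr (ψ := fun y => chartAt (Cm d) (Φ' v) (Φ' y))]
  filter_upwards [h] with y hy
  rw [hy]

theorem pf_add (u u' : SF d Y) : pf Φ (u + u') v = pf Φ u v + pf Φ u' v := by
  rw [pf, pf, pf, pbk, pbk, pbk, vl_add, Matrix.mulVec_add]

theorem pf_smul (c : ℂ) (u : SF d Y) : pf Φ (c • u) v = c • pf Φ u v := by
  rw [pf, pf, pbk, pbk, vl_smul, Matrix.mulVec_smul]

theorem e2_pf (h : SmA d Φ v) (u : SF d Y) (p q : Cm a) :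
    e2 (pf Φ u v) p q = e2 (vl u (chartAt (Cm d) (Φ v)) (chartAt (Cm d) (Φ v) (Φ v)))
      (fderiv ℝ (fun y => chartAt (Cm d) (Φ v) (Φ y)) v p)
      (fderiv ℝ (fun y => chartAt (Cm d) (Φ v) (Φ y)) v q) :=
  e2_pb ((h.sm _ (ca _)).differentiableAt (by simp)) _ p q

theorem pf_comp {ψ : Cm b → Cm a} {z : Cm b} (h : SmA d Φ (ψ z)) (hψ : ContDiffAt ℝ ∞ ψ z)
    (u : SF d Y) : pf (fun y => Φ (ψ y)) u z = lr (jc ψ z) *ᵥ pf Φ u (ψ z) := by
  rw [pf, pf, pbk, pbk, Matrix.mulVec_mulVec, ← f1a.lr_mul,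
    ← k1b'.jc_comp (φ := fun y => chartAt (Cm d) (Φ (ψ z)) (Φ y)) (hψ.differentiableAt (by simp))
      ((h.sm _ (ca _)).differentiableAt (by simp))]

theorem pf_shift {p : Cm a} (h : SmA d Φ (v + p)) (hp : ∀ᶠ y in 𝓝 v, Φ (y + p) = Φ y)
    (u : SF d Y) : pf Φ u (v + p) = pf Φ u v := by
  have h1 : jc (fun y : Cm a => y + p) v = 1 := by
    rw [← k1b'.jc_id v]
    ext i l
    have : ∀ w : Cm a, fderiv ℝ (fun y : Cm a => cx (y + p) l) v w =
        fderiv ℝ (fun y : Cm a => cx y l) v w := fun w => by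
      simp only [← cxL_apply, map_add]
      rw [fderiv_add_const]
    induction i using Fin.addCases with
    | left j => simp only [jc, Matrix.of_apply, dr, Fin.addCases_left, dz, this]
    | right j => simp only [jc, Matrix.of_apply, dr, Fin.addCases_right, dzb, this]
  have h2 := pf_comp (ψ := fun y => y + p) (z := v) h (contDiffAt_id.add contDiffAt_const) u
  have h3 : lr (1 : Matrix (Fin (a + a)) (Fin (a + a)) ℂ) = 1 := lam_one
  rw [h1, h3, Matrix.one_mulVec] at h2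
  rw [← h2]
  exact pf_congr hp u

variable [IsManifold 𝓘(ℂ, Cm d) ω Y]

theorem pf_eq (h : SmA d Φ v) (he : At e (Φ v)) (u : SF d Y) :
    pf Φ u v = pbk (fun y => e (Φ y)) (vl u e) v := by
  have ht : ContDiffAt ℝ ∞ (fun z => e ((chartAt (Cm d) (Φ v)).symm z))
      (chartAt (Cm d) (Φ v) (Φ v)) := (Pb1H.smo_id (M := Y)).sm _ e _ (ca _) he
  rw [pf, pbk, pbk, (vl_isF u).ch _ e _ (ca _) he, Matrix.mulVec_mulVec]
  have h1 : jc (fun y => e (Φ y)) v = jc (fun y => chartAt (Cm d) (Φ v) (Φ y)) v *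
      jt (chartAt (Cm d) (Φ v)) e (Φ v) := by
    rw [jt, ← k1b'.jc_comp (φ := fun z => e ((chartAt (Cm d) (Φ v)).symm z))
      ((h.sm _ (ca _)).differentiableAt (by simp)) (ht.differentiableAt (by simp))]
    refine k1b'.jc_congr ?_
    filter_upwards [SmA.near h.cont (ca (d := d) (Φ v))] with y hy
    rw [(chartAt (Cm d) (Φ v)).left_inv hy.2]
  rw [h1, f1a.lr_mul]
  rfl

theorem pf_near (h : ∀ᶠ y in 𝓝 v, SmA d Φ y) (he : At e (Φ v)) (u : SF d Y) :
    pf Φ u =ᶠ[𝓝 v] pbk (fun y => e (Φ y)) (vl u e) := by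
  filter_upwards [h, SmA.near h.self_of_nhds.cont he] with y h1 h2 using pf_eq h1 h2 u

theorem pf_sm (h : ∀ᶠ y in 𝓝 v, SmA d Φ y) (u : SF d Y) : ContDiffAt ℝ ∞ (pf Φ u) v :=
  (k1b'.pbk_smooth (h.self_of_nhds.sm _ (ca _)) ((vl_isF u).sm _ _ (ca _))).congr_of_eventuallyEq
    (pf_near h (ca _) u)

omit [IsManifold 𝓘(ℂ, Cm d) ω Y] in
theorem pf_pb (h : SmA d Φ v) (hg : Smo d d' g)
    {T : SF d' Y' → SF d Y} (hT : IsPb g T) (u : SF d' Y') :
    pf Φ (T u) v = pf (fun y => g (Φ y)) u v := by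
  rw [pf, pf, pbk, pbk, hT u _ _ _ (ca _) (ca (g (Φ v))), Matrix.mulVec_mulVec, ← f1a.lr_mul,
    ← k1b'.jc_comp (φ := fun z => chartAt (Cm d') (g (Φ v)) (g ((chartAt (Cm d) (Φ v)).symm z)))
      ((h.sm _ (ca _)).differentiableAt (by simp))
      ((hg.sm _ _ _ (ca _) (ca _)).differentiableAt (by simp)), k1b'.jc_congr]
  filter_upwards [SmA.near h.cont (ca (d := d) (Φ v))] with y hy
  rw [(chartAt (Cm d) (Φ v)).left_inv hy.2]

end top

variable {V : Mf d} {Φ : Cm a → V.X} {v : Cm a}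

theorem pf_d (h : ∀ᶠ y in 𝓝 v, SmA d Φ y) (u : Fs V) :
    dT (pf Φ u) v = pf Φ ((dR V).d u) v := by
  rw [kA.congr (pf_near h (ca _) u), k1b'.nat (h.self_of_nhds.sm _ (ca _))
    ((vl_isF u).sm _ _ (ca _)), pf, pbk, pbk, (dR_real V).d u _ _ (ca _)]

theorem e2_pf_cj (h : SmA d Φ v) (u : Fs V) (p q : Cm a) :
    e2 (pf Φ ((dR V).cj u) v) p q = star (e2 (pf Φ u v) p q) := by
  rw [e2_pf h, e2_pf h, (dR_real V).cj u _ _ (ca _), e2_cjv]

theorem e2_cd {u : Cm a → Fo a} {m : WithTop ℕ∞} (h : ContDiffAt ℝ m u v) (p q : Cm a) :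
    ContDiffAt ℝ m (fun y => e2 (u y) p q) v := by
  simp only [e2_eq]
  exact (evL _).contDiff.contDiffAt.comp v h

theorem e1_cd {u : Cm a → Fo a} {m : WithTop ℕ∞} (h : ContDiffAt ℝ m u v) (p : Cm a) :
    ContDiffAt ℝ m (fun y => e1 (u y) p) v := by
  simp only [e1_eq]
  exact (evL _).contDiff.contDiffAt.comp v h

theorem e2_fd {u : Cm a → Fo a} (h : DifferentiableAt ℝ u v) (p q r : Cm a) :
    fderiv ℝ (fun y => e2 (u y) p q) v r = e2 (fderiv ℝ u v r) p q := by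
  simp only [e2_eq]
  rw [((evL _).hasFDerivAt.comp v h.hasFDerivAt).fderiv (f := fun y => evL _ (u y))]
  rfl

theorem e1_fd {u : Cm a → Fo a} (h : DifferentiableAt ℝ u v) (p r : Cm a) :
    fderiv ℝ (fun y => e1 (u y) p) v r = e1 (fderiv ℝ u v r) p := by
  simp only [e1_eq]
  rw [((evL _).hasFDerivAt.comp v h.hasFDerivAt).fderiv (f := fun y => evL _ (u y))]
  rfl

variable (d) in
/-- `Φ` is smooth and periodic on the open set `O`, which is invariant under the real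
translations along `p`, `q` -/
structure Tor (Φ : Cm a → V.X) (O : Set (Cm a)) (p q : Cm a) : Prop where
  opn : IsOpen O
  sm : ∀ y ∈ O, SmA d Φ y
  tp : ∀ y ∈ O, ∀ s : ℝ, y + s • p ∈ O
  tq : ∀ y ∈ O, ∀ s : ℝ, y + s • q ∈ O
  pp : ∀ y ∈ O, Φ (y + p) = Φ y
  pq : ∀ y ∈ O, Φ (y + q) = Φ y

variable {O : Set (Cm a)} {p q x : Cm a}

theorem Tor.ev (h : Tor d Φ O p q) {y : Cm a} (hy : y ∈ O) : ∀ᶠ z in 𝓝 y, SmA d Φ z := by
  filter_upwards [h.opn.mem_nhds hy] with z hz using h.sm z hz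

theorem Tor.mem (h : Tor d Φ O p q) (hx : x ∈ O) (s t : ℝ) : x + s • p + t • q ∈ O :=
  h.tq _ (h.tp _ hx s) t

theorem Tor.shp (h : Tor d Φ O p q) {y : Cm a} (hy : y ∈ O) (u : Fs V) :
    pf Φ u (y + p) = pf Φ u y := by
  refine pf_shift (h.sm _ ?_) ?_ u
  · simpa using h.tp y hy 1
  · filter_upwards [h.opn.mem_nhds hy] with z hz using h.pp z hz

theorem Tor.shq (h : Tor d Φ O p q) {y : Cm a} (hy : y ∈ O) (u : Fs V) :
    pf Φ u (y + q) = pf Φ u y := by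
  refine pf_shift (h.sm _ ?_) ?_ u
  · simpa using h.tq y hy 1
  · filter_upwards [h.opn.mem_nhds hy] with z hz using h.pq z hz

theorem Tor.int (h : Tor d Φ O p q) (hx : x ∈ O) (u : Fs V) :
    IntegrableOn (fun z : Fin 2 → ℝ => e2 (pf Φ u (x + z 0 • p + z 1 • q)) p q) (Icc 0 1) := by
  refine ContinuousOn.integrableOn_compact isCompact_Icc fun z _ => ?_
  refine ContinuousAt.continuousWithinAt ?_
  exact ContinuousAt.comp (f := fun z : Fin 2 → ℝ => x + z 0 • p + z 1 • q)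
    (e2_cd (pf_sm (h.ev (h.mem hx _ _)) u) p q).continuousAt (by fun_prop)

theorem Tor.add (h : Tor d Φ O p q) (hx : x ∈ O) (u u' : Fs V) :
    Pe Φ x p q (u + u') = Pe Φ x p q u + Pe Φ x p q u' := by
  simp only [Pe, avg, pf_add, e2_add]
  exact integral_add (h.int hx u) (h.int hx u')

theorem Pe_smul (c : ℂ) (u : Fs V) : Pe Φ x p q (c • u) = c * Pe Φ x p q u := by
  simp only [Pe, avg, pf_smul, e2_smul]
  exact integral_const_mul _ _

theorem Tor.cj (h : Tor d Φ O p q) (hx : x ∈ O) (u : Fs V) :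
    Pe Φ x p q ((dR V).cj u) = star (Pe Φ x p q u) := by
  have h1 : ∀ z : Fin 2 → ℝ, e2 (pf Φ ((dR V).cj u) (x + z 0 • p + z 1 • q)) p q =
      (starRingEnd ℂ) (e2 (pf Φ u (x + z 0 • p + z 1 • q)) p q) := fun z =>
    e2_pf_cj (h.sm _ (h.mem hx (z 0) (z 1))) u p q
  simp only [Pe, avg, h1]
  exact integral_conj

theorem Tor.exact (h : Tor d Φ O p q) (hx : x ∈ O) (β : Fs V) :
    Pe Φ x p q ((dR V).d β) = 0 := by
  have h1 := stokes2 (f := fun y => e1 (pf Φ β y) q) (g := fun y => e1 (pf Φ β y) p) (x := x)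
    (a := p) (b := q)
    (fun s _ t _ => e1_cd ((pf_sm (h.ev (h.mem hx s t)) β).of_le (by simp)) q)
    (fun s _ t _ => e1_cd ((pf_sm (h.ev (h.mem hx s t)) β).of_le (by simp)) p)
    (fun t _ => by rw [add_right_comm, h.shp (h.tq _ hx t)])
    (fun s _ => by rw [h.shq (h.tp _ hx s)])
  rw [← h1, Pe, avg, avg]
  refine integral_congr_ae (Eventually.of_forall fun z => ?_)
  have h2 := h.ev (h.mem hx (z 0) (z 1))
  have h3 := (pf_sm h2 β).differentiableAt (by simp)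
  show e2 _ p q = fderiv ℝ _ _ p - fderiv ℝ _ _ q
  rw [← pf_d h2, e2_dT h3, e1_fd h3, e1_fd h3]

theorem Tor.move (h : Tor d Φ O p q) {r : Cm a} (hx : ∀ s ∈ Icc (0 : ℝ) 1, x + s • r ∈ O)
    {u : Fs V} (hu : (dR V).d u = 0) : Pe Φ (x + r) p q u = Pe Φ x p q u := by
  refine stokes3 (g := fun y => e2 (pf Φ u y) r q) (h := fun y => e2 (pf Φ u y) r p)
    (fun s hs t _ t' _ => ?_) (fun s hs t _ => ?_) (fun s hs t _ => ?_)
  · have h2 := h.ev (h.mem (hx s hs) t t')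
    have h3 := pf_sm h2 u
    have h4 := h3.differentiableAt (by simp)
    refine ⟨(e2_cd h3 _ _).differentiableAt (by simp), (e2_cd h3 _ _).differentiableAt (by simp),
      (e2_cd h3 _ _).differentiableAt (by simp), ?_⟩
    rw [e2_fd h4, e2_fd h4, e2_fd h4]
    refine e2_closed h4 ?_ r p q
    rw [pf_d h2, hu, pf, pbk, vl_zero, Matrix.mulVec_zero]
  · rw [add_right_comm, h.shp (h.tq _ (hx s hs) t)]
  · rw [h.shq (h.tp _ (hx s hs) t)]

end Vale.Agent.P301Z.Pt
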