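import Vale.Agent.P301Z.Pt.Fun
import Vale.Agent.P281Z.Mf.Loc
import Mathlib.Analysis.Complex.CoveringMap
import Mathlib.Topology.Homotopy.Lifting

/-!
# P301, periods: finitely many period functionals along the ray
-/

open scoped Manifold ContDiff Topology Matrix
open Filter MeasureTheory Set Metric
open Vale.Agent.P272.K Vale.Agent.P299.IX Vale.Agent.P299.IX.Fock Vale.Agent.P281Z.Hg
open Vale.Agent.P281Z (Mf Co)
open Vale.Agent.P301Z.Lat

noncomputable section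

namespace Vale.Agent.P301Z.Pt

variable {n r : ℕ} {B : BB n r}

/-- marked fibres over a ray, with flat markings -/
structure Rf (B : BB n r) where
  V : Mf (n + n + 1)
  Y : ℝ → MK B
  i : ∀ T, (Y T).V.X → V.X
  T₁ : ℝ
  flat : ∀ T₀, T₁ ≤ T₀ → ∃ (O : Set V.X) (Ψ : V.X → (Y T₀).V.X), IsOpen O ∧ range (i T₀) ⊆ O ∧
    (∀ x ∈ O, SmP (n + n + 1) (n + n) Ψ x) ∧ (∀ y, Ψ (i T₀ y) = y) ∧
    ∀ᶠ T in 𝓝[Ici T₁] T₀, (Y T).Mor (Y T₀) fun y => Ψ (i T y)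

/-- a polydisc chart in which the family is a monomial -/
structure Rf.Ch (R : Rf B) where
  Θ : Chart (n + n + 1) R.V.X
  m : Fin (n + n + 1) → ℕ
  cc : ℂ
  tt : ℝ → ℂ
  co : Co (n + n + 1) Θ
  tgt : ball 0 1 ⊆ Θ.target
  m0 : 0 < m 0
  cont : ContinuousOn tt (Ici R.T₁)
  ne : ∀ T, R.T₁ ≤ T → tt T ≠ 0
  lt : ∀ T, R.T₁ ≤ T → ‖tt T‖ < ‖cc‖
  fib : ∀ T, R.T₁ ≤ T → ∀ x ∈ ball (0 : Cm (n + n + 1)) 1, cc * ∏ l, x l ^ m l = tt T →
    Θ.symm x ∈ range (R.i T)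

section lg
variable {M : ℕ}

/-- the exponential map -/
def xp (y : Cm M) : Cm M := fun l => Complex.exp (y l)

/-- the negative orthant -/
def Ng (M : ℕ) : Set (Cm M) := {y | ∀ l, (y l).re < 0}

/-- periods of the exponential map -/
def Ip (p : Cm M) : Prop := ∀ l, ∃ k : ℤ, p l = k * (2 * Real.pi * Complex.I)

theorem xp_per {p : Cm M} (hp : Ip p) (y : Cm M) : xp (y + p) = xp y := by
  ext l
  obtain ⟨k, hk⟩ := hp l
  simp only [xp, Pi.add_apply, hk, Complex.exp_add, Complex.exp_int_mul_two_pi_mul_I, mul_one]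

theorem Ip.re {p : Cm M} (hp : Ip p) (l : Fin M) : (p l).re = 0 := by
  obtain ⟨k, hk⟩ := hp l
  simp [hk]

theorem ng_add {p : Cm M} (hp : Ip p) (s : ℝ) (y : Cm M) : y + s • p ∈ Ng M ↔ y ∈ Ng M := by
  simp only [Ng, mem_ofPred_eq, Pi.add_apply, Pi.smul_apply, Complex.add_re, Complex.smul_re,
    hp.re, smul_zero, add_zero]

theorem ng_open : IsOpen (Ng M) := by
  simp only [Ng, ofPred_forall]
  exact isOpen_iInter_of_finite fun l => isOpen_lt (by fun_prop) continuous_const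

theorem ng_seg {x y : Cm M} (hx : x ∈ Ng M) (hy : y ∈ Ng M) {s : ℝ} (hs : s ∈ Icc (0 : ℝ) 1) :
    x + s • (y - x) ∈ Ng M := fun l => by
  have h1 := hx l
  have h2 := hy l
  simp only [Pi.add_apply, Pi.smul_apply, Pi.sub_apply, Complex.add_re, Complex.smul_re,
    Complex.sub_re, smul_eq_mul]
  rcases hs.1.eq_or_lt with h | h
  · rw [← h]; simpa using h1
  · nlinarith [hs.2, mul_pos h (neg_pos.2 h2), mul_nonneg (sub_nonneg.2 hs.2) (neg_pos.2 h1).le]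

theorem xp_mem {y : Cm M} (hy : y ∈ Ng M) : xp y ∈ ball (0 : Cm M) 1 := by
  rw [mem_ball_zero_iff, pi_norm_lt_iff one_pos]
  intro l
  rw [xp, Complex.norm_exp]
  exact Real.exp_lt_one_iff.2 (hy l)

theorem xp_cd (y : Cm M) : ContDiffAt ℝ ∞ xp y :=
  contDiffAt_pi.2 fun l => (Complex.contDiff_exp (𝕜 := ℝ)).contDiffAt.comp y (by fun_prop)

theorem xp_prod (m : Fin M → ℕ) (y : Cm M) :
    ∏ l, xp y l ^ m l = Complex.exp (∑ l, m l * y l) := by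
  rw [Complex.exp_sum]
  exact Finset.prod_congr rfl fun l _ => by rw [xp, Complex.exp_nat_mul]

variable {V : Mf M} {Θ : Chart M V.X}

theorem sm_symm (h : Co M Θ) {x : Cm M} (hx : x ∈ Θ.target) : SmA M Θ.symm x :=
  ⟨Θ.continuousAt_symm hx, fun e he =>
    ((h.inv x hx e he).contDiffAt.restrict_scalars ℝ).of_le le_top⟩

theorem sm_xp (h : Co M Θ) (ht : ball 0 1 ⊆ Θ.target) {y : Cm M} (hy : y ∈ Ng M) :
    SmA M (fun y => Θ.symm (xp y)) y := (sm_symm h (ht (xp_mem hy))).comp_left (xp_cd y)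

theorem ex_log {f : ℝ → ℂ} (hf : Continuous f) (h0 : ∀ T, f T ≠ 0) :
    ∃ β : ℝ → ℂ, Continuous β ∧ ∀ T, Complex.exp (β T) = f T := by
  obtain ⟨F, ⟨-, hF⟩, -⟩ := Complex.isCoveringMap_exp.existsUnique_continuousMap_lifts
    (⟨fun T => ⟨f T, h0 T⟩, hf.subtype_mk _⟩ : C(ℝ, {z : ℂ // z ≠ 0})) 0 (Complex.log (f 0))
    (Subtype.ext (Complex.exp_log (h0 0)))
  exact ⟨F, F.continuous, fun T => congrArg Subtype.val (congrFun hF T)⟩

end lg

namespace Rf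

variable (R : Rf B)

/-- the chosen neighbourhood of the fibre -/
def O (T : ℝ) : Set R.V.X := if h : R.T₁ ≤ T then (R.flat T h).choose else ∅

/-- the chosen retraction -/
def Ψ (T : ℝ) : R.V.X → (R.Y T).V.X :=
  if h : R.T₁ ≤ T then (R.flat T h).choose_spec.choose
  else fun _ => Classical.choice (haveI := (R.Y T).sc; inferInstance)

theorem spec {T : ℝ} (h : R.T₁ ≤ T) : IsOpen (R.O T) ∧ range (R.i T) ⊆ R.O T ∧
    (∀ x ∈ R.O T, SmP (n + n + 1) (n + n) (R.Ψ T) x) ∧ (∀ y, R.Ψ T (R.i T y) = y) ∧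
    ∀ᶠ T' in 𝓝[Ici R.T₁] T, (R.Y T').Mor (R.Y T) fun y => R.Ψ T (R.i T' y) := by
  rw [O, Ψ, dif_pos h, dif_pos h]
  exact (R.flat T h).choose_spec.choose_spec

variable {R} (K : R.Ch)

/-- logarithmic coordinates on the total space -/
def Ch.Λ (y : Cm (n + n + 1)) : R.V.X := K.Θ.symm (xp y)

/-- the form `Σ m_l y_l` -/
def Ch.μ (y : Cm (n + n + 1)) : ℂ := ∑ l, K.m l * y l

theorem Ch.μ_add (x y : Cm (n + n + 1)) : K.μ (x + y) = K.μ x + K.μ y := by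
  simp only [Ch.μ, Pi.add_apply, mul_add, Finset.sum_add_distrib]

theorem Ch.μ_smul (s : ℝ) (y : Cm (n + n + 1)) : K.μ (s • y) = s * K.μ y := by
  simp only [Ch.μ, Pi.smul_apply, Finset.mul_sum, Complex.real_smul]
  exact Finset.sum_congr rfl fun l _ => by ring

/-- the periods which are tangent to the fibres -/
def Ch.Tp (p : Cm (n + n + 1)) : Prop := Ip p ∧ K.μ p = 0

/-- the domain -/
def Ch.W (T : ℝ) (p q : Cm (n + n + 1)) : Set (Cm (n + n + 1)) :=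
  sat (Ng _ ∩ K.Λ ⁻¹' R.O T) p q

variable {K} {T : ℝ} {p q y : Cm (n + n + 1)}

theorem Ch.Λ_sm (hy : y ∈ Ng (n + n + 1)) : SmA (n + n + 1) K.Λ y := sm_xp K.co K.tgt hy

theorem Ch.Λ_per (hp : Ip p) (y : Cm (n + n + 1)) : K.Λ (y + p) = K.Λ y := by
  rw [Ch.Λ, xp_per hp, Ch.Λ]

theorem Ch.tor (hT : R.T₁ ≤ T) (hp : Ip p) (hq : Ip q) :
    Tor (n + n) (fun y => R.Ψ T (K.Λ y)) (K.W T p q) p q := by
  have h1 : ∀ {w}, Ip w → ∀ y, y + w ∈ Ng _ ∩ K.Λ ⁻¹' R.O T ↔ y ∈ Ng _ ∩ K.Λ ⁻¹' R.O T :=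
    fun {w} hw y => by
      have := ng_add hw 1 y
      rw [one_smul] at this
      rw [mem_inter_iff, mem_inter_iff, this, mem_preimage, mem_preimage, Ch.Λ_per hw]
  refine tor_sat ?_ (h1 hp) (h1 hq) (fun y hy => (Ch.Λ_sm hy.1).comp ((R.spec hT).2.2.1 _ hy.2))
    (fun y => by rw [Ch.Λ_per hp]) fun y => by rw [Ch.Λ_per hq]
  exact ContinuousOn.isOpen_inter_preimage
    (fun y hy => (Ch.Λ_sm hy).cont.continuousWithinAt) ng_open (R.spec hT).1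

theorem Ch.on (hT : R.T₁ ≤ T) (hy : y ∈ Ng (n + n + 1))
    (h : K.cc * Complex.exp (K.μ y) = K.tt T) : K.Λ y ∈ range (R.i T) :=
  K.fib T hT _ (xp_mem hy) (by rw [xp_prod]; exact h)

theorem Ch.plane (hp : K.Tp p) (hq : K.Tp q) (hy : y ∈ Ng (n + n + 1)) (s t : ℝ) :
    y + s • p + t • q ∈ Ng (n + n + 1) ∧ K.μ (y + s • p + t • q) = K.μ y := by
  rw [ng_add hq.1, ng_add hp.1, K.μ_add, K.μ_add, K.μ_smul, K.μ_smul, hp.2, hq.2]
  exact ⟨hy, by ring⟩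

theorem Ch.memW (hT : R.T₁ ≤ T) (hp : K.Tp p) (hq : K.Tp q) (hy : y ∈ Ng (n + n + 1))
    (h : K.cc * Complex.exp (K.μ y) = K.tt T) : y ∈ K.W T p q := fun s t =>
  ⟨(Ch.plane hp hq hy s t).1, (R.spec hT).2.1
    (Ch.on hT (Ch.plane hp hq hy s t).1 (by rw [(Ch.plane hp hq hy s t).2, h]))⟩

variable (K) in
/-- the period functional of the torus at `y` in the fibre over `T` -/
def Ch.g (T : ℝ) (y p q : Cm (n + n + 1)) : (Fin r → ℂ) → ℂ :=
  gf (R.Y T) (fun y => R.Ψ T (K.Λ y)) y p q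

theorem Ch.path (hp : K.Tp p) (hq : K.Tp q) {γ : ℝ → Cm (n + n + 1)} (hγ : Continuous γ)
    (h1 : ∀ T, R.T₁ ≤ T → γ T ∈ Ng (n + n + 1) ∧ K.cc * Complex.exp (K.μ (γ T)) = K.tt T)
    (hT : R.T₁ ≤ T) : K.g T (γ T) p q = K.g R.T₁ (γ R.T₁) p q := by
  refine isPreconnected_Ici.induction₂' (fun T T' => K.g T (γ T) p q = K.g T' (γ T') p q)
    (fun T₀ h₀ => ?_) (fun _ _ _ _ _ _ a b => a.trans b) hT self_mem_Ici
  have t0 := Ch.tor (K := K) h₀ hp.1 hq.1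
  obtain ⟨ε, hε, hb⟩ := Metric.isOpen_iff.1 t0.opn _ (Ch.memW h₀ hp hq (h1 _ h₀).1 (h1 _ h₀).2)
  filter_upwards [(R.spec h₀).2.2.2.2, self_mem_nhdsWithin,
    mem_nhdsWithin_of_mem_nhds (hγ.continuousAt.eventually (ball_mem_nhds _ hε))] with T hm hT hd
  have e1 : K.g T (γ T) p q = gf (R.Y T₀) (fun y => R.Ψ T₀ (K.Λ y)) (γ T) p q := by
    refine (Ch.tor hT hp.1 hq.1).gf_mor hm (Ch.memW hT hp hq (h1 _ hT).1 (h1 _ hT).2) t0 (hb hd)
      fun s t => ?_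
    have h2 := Ch.plane hp hq (h1 _ hT).1 s t
    obtain ⟨z, hz⟩ := Ch.on hT h2.1 (by rw [h2.2, (h1 _ hT).2])
    simp only [← hz, (R.spec hT).2.2.2.1]
  have e2 := t0.gf_move (x := γ T₀) (w := γ T - γ T₀) fun s hs => hb (by
    rw [mem_ball, dist_eq_norm, add_sub_cancel_left, norm_smul, Real.norm_eq_abs,
      abs_of_nonneg hs.1, ← dist_eq_norm]
    nlinarith [hs.1, hs.2, mem_ball.1 hd, dist_nonneg (x := γ T) (y := γ T₀)])
  rw [add_sub_cancel] at e2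
  have e3 : K.g T (γ T) p q = K.g T₀ (γ T₀) p q := e1.trans e2
  exact ⟨e3.symm, e3⟩

theorem Ch.fibre (hT : R.T₁ ≤ T) (hp : K.Tp p) (hq : K.Tp q) {y' : Cm (n + n + 1)}
    (hy : y ∈ Ng (n + n + 1)) (hy' : y' ∈ Ng (n + n + 1)) (he : K.μ y' = K.μ y)
    (h : K.cc * Complex.exp (K.μ y) = K.tt T) : K.g T y' p q = K.g T y p q := by
  have e2 := (Ch.tor (K := K) hT hp.1 hq.1).gf_move (x := y) (w := y' - y) fun s hs =>
    Ch.memW hT hp hq (ng_seg hy hy' hs) (by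
      have h1 := K.μ_add (y' - y) y
      rw [sub_add_cancel, he, right_eq_add] at h1
      rw [K.μ_add, K.μ_smul, h1, mul_zero, add_zero, h])
  rwa [add_sub_cancel] at e2

theorem Ch.shift (hT : R.T₁ ≤ T) (hp : Ip p) (hq : Ip q) {w : Cm (n + n + 1)} (hw : Ip w)
    (hy : y + w ∈ K.W T p q) : K.g T (y + w) p q = K.g T y p q := funext fun _ =>
  Pe_shift (fun s t => (Ch.tor hT hp hq).sm _ ((Ch.tor hT hp hq).mem hy s t))
    (fun z => by rw [Ch.Λ_per hw]) _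

/-- there are only finitely many period functionals -/
theorem Ch.fin (hp : K.Tp p) (hq : K.Tp q) : ∃ (k : ℕ) (y₀ : Fin k → Cm (n + n + 1)),
    (∀ j, y₀ j ∈ Ng (n + n + 1) ∧ K.cc * Complex.exp (K.μ (y₀ j)) = K.tt R.T₁) ∧
    ∀ T, R.T₁ ≤ T → ∀ y ∈ Ng (n + n + 1), K.cc * Complex.exp (K.μ y) = K.tt T →
      ∃ j, K.g T y p q = K.g R.T₁ (y₀ j) p q := by
  have hc : K.cc ≠ 0 := norm_pos_iff.1 ((norm_nonneg _).trans_lt (K.lt _ le_rfl))
  obtain ⟨β, hβ, hβ'⟩ := ex_log (f := fun T => K.tt (max T R.T₁) / K.cc)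
    ((K.cont.comp_continuous (by fun_prop) fun T => mem_Ici.2 (le_max_right _ _)).div_const _)
    fun T => div_ne_zero (K.ne _ (le_max_right _ _)) hc
  have hβ2 : ∀ T, R.T₁ ≤ T → K.cc * Complex.exp (β T) = K.tt T := fun T h => by
    rw [hβ', max_eq_left h, mul_div_cancel₀ _ hc]
  have hre : ∀ T, R.T₁ ≤ T → (β T).re < 0 := fun T h => by
    have h1 := K.lt T h
    rw [← hβ2 T h, norm_mul, Complex.norm_exp] at h1
    have h2 : Real.exp (β T).re < 1 := by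
      by_contra h3
      nlinarith [norm_nonneg K.cc, not_lt.1 h3]
    exact Real.exp_lt_one_iff.1 h2
  set S : ℕ := ∑ l, K.m l with hS
  have hS0 : 0 < S := K.m0.trans_le (Finset.single_le_sum (f := K.m) (fun _ _ => Nat.zero_le _)
    (Finset.mem_univ 0))
  have hS1 : (S : ℂ) ≠ 0 := Nat.cast_ne_zero.2 hS0.ne'
  let γ : ℕ → ℝ → Cm (n + n + 1) := fun j T _ => (β T + j * (2 * Real.pi * Complex.I)) / S
  have hμ : ∀ j T, K.μ (γ j T) = β T + j * (2 * Real.pi * Complex.I) := fun j T => by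
    simp only [Ch.μ, γ, ← Finset.sum_mul, ← Nat.cast_sum, ← hS]
    rw [mul_div_cancel₀ _ hS1]
  have hγ : ∀ j T, R.T₁ ≤ T →
      γ j T ∈ Ng (n + n + 1) ∧ K.cc * Complex.exp (K.μ (γ j T)) = K.tt T := fun j T h => by
    refine ⟨fun l => ?_, ?_⟩
    · simp only [γ, Complex.div_natCast_re]
      refine div_neg_of_neg_of_pos ?_ (Nat.cast_pos.2 hS0)
      simpa using hre T h
    · rw [hμ, Complex.exp_add, Complex.exp_nat_mul_two_pi_mul_I, mul_one, hβ2 T h]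
  refine ⟨K.m 0, fun j => γ j R.T₁, fun j => hγ j _ le_rfl, fun T hT y hy h => ?_⟩
  obtain ⟨z, hz⟩ := Complex.exp_eq_exp_iff_exists_int.1
    (mul_left_cancel₀ hc (h.trans (hβ2 T hT).symm))
  have hm : (0 : ℤ) < K.m 0 := Nat.cast_pos.2 K.m0
  have h1 := Int.emod_nonneg z hm.ne'
  have h2 := Int.emod_lt_of_pos z hm
  let j : Fin (K.m 0) := ⟨(z % K.m 0).toNat, by omega⟩
  let w : Cm (n + n + 1) := Pi.single 0 (((z / K.m 0 : ℤ) : ℂ) * (2 * Real.pi * Complex.I))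
  have hw : Ip w := fun l => by
    by_cases hl : l = 0
    · exact ⟨z / K.m 0, by rw [hl]; exact Pi.single_eq_same _ _⟩
    · exact ⟨0, by simp [w, Pi.single_eq_of_ne hl]⟩
  have hμw : K.μ w = K.m 0 * (((z / K.m 0 : ℤ) : ℂ) * (2 * Real.pi * Complex.I)) := by
    rw [Ch.μ, Finset.sum_eq_single 0 (fun l _ hl => by simp [w, Pi.single_eq_of_ne hl])
      (fun h => absurd (Finset.mem_univ _) h)]
    simp only [w, Pi.single_eq_same]
  have hy' : y - w ∈ Ng (n + n + 1) := by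
    have := (ng_add hw (-1) y).2 hy
    rwa [neg_smul, one_smul, ← sub_eq_add_neg] at this
  have hj : ((j : ℕ) : ℂ) = (z : ℂ) - K.m 0 * ((z / K.m 0 : ℤ) : ℂ) := by
    have h3 : ((j : ℕ) : ℤ) = z - K.m 0 * (z / K.m 0) := by
      have := Int.emod_add_mul_ediv z (K.m 0)
      simp only [j]
      omega
    exact_mod_cast congrArg (Int.cast : ℤ → ℂ) h3
  have he : K.μ (y - w) = K.μ (γ j T) := by
    have h3 := K.μ_add (y - w) w
    rw [sub_add_cancel, hz, hμw] at h3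
    rw [hμ, hj]
    linear_combination -h3
  refine ⟨j, ?_⟩
  have h4 := Ch.shift (K := K) (y := y - w) hT hp.1 hq.1 hw
    (by rw [sub_add_cancel]; exact Ch.memW hT hp hq hy h)
  rw [sub_add_cancel] at h4
  rw [h4, Ch.fibre hT hp hq (hγ j T hT).1 hy' he (hγ j T hT).2]
  exact Ch.path hp hq (γ := γ j) (continuous_pi fun _ => by fun_prop) (hγ j) hT

end Rf

end Vale.Agent.P301Z.Pt
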