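import Vale.Agent.P301Z.Pt.Bd
import Vale.Agent.P301Z.Sn.Fibr

/-!
# P301: the block FLAT
-/

open scoped Manifold ContDiff Topology Matrix
open Filter Set Metric Complex
open Vale.Agent.P272.K Vale.Agent.P281Z.Hg
open Vale.Agent.P301Z.Lat

noncomputable section

namespace Vale.Agent.P301Z.Pt

variable {N : ℕ}

/-- an integral matrix as a real linear map -/
def lm (A : Matrix (Fin (N + 1)) (Fin N) ℤ) : Cm N →L[ℝ] Cm (N + 1) :=
  (LinearMap.toContinuousLinearMap (A.map (Int.cast : ℤ → ℂ)).mulVecLin).restrictScalars ℝ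

theorem lm_apply (A : Matrix (Fin (N + 1)) (Fin N) ℤ) (v : Cm N) (l : Fin (N + 1)) :
    lm A v l = ∑ i, (A l i : ℂ) * v i := rfl

theorem lm_pe (A : Matrix (Fin (N + 1)) (Fin N) ℤ) (i : Fin N) (l : Fin (N + 1)) :
    lm A (pe i) l = A l i * (2 * Real.pi * I) := by
  simp [lm_apply, pe, Pi.single_apply]

theorem xp_lm (A : Matrix (Fin (N + 1)) (Fin N) ℤ) {c : Cm (N + 1)} (hc : ∀ l, c l ≠ 0) (v : Cm N) :
    xp ((fun l => log (c l)) + lm A v) = Key.ex c A v := funext fun l => by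
  rw [xp, Pi.add_apply, exp_add, exp_log (hc l), lm_apply, Key.ex]

theorem ng_of {y : Cm N} (h : ‖xp y‖ < 1) : y ∈ Ng N := fun l => by
  have h1 := (norm_le_pi_norm (xp y) l).trans_lt h
  rwa [xp, norm_exp, Real.exp_lt_one_iff] at h1

theorem flat_of (hF : Sn.FIBR) (hK : Key.KEY) : FLAT := by
  intro n r B F k x R w lam hk h
  obtain ⟨hl, hT, K, ψ, φ, A, C₁, hG, hFb⟩ := hF n r B F k x R w lam hk h
  obtain ⟨C, hC, hK⟩ := hK (n + n) (by have := B.npos; omega) _ hG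
  refine ⟨C, hC, fun ρ η a hρ hη => ?_⟩
  obtain ⟨T₀, hT₀⟩ := hK ρ (min η (1 / 2)) a hρ (by positivity)
  have h0 : R.A.τ R.A.o = 0 := R.A.leq.1.self_of_nhds.2 R.A.mem
  have h1 : Tendsto (fun T => ‖R.A.τ (R.t T)‖) atTop (𝓝 0) := by
    simpa only [h0, norm_zero, Function.comp_def] using ((P281Z.AnV.cont (n := 1)
      fun e he => (R.A.leq.2 e he).1).tendsto.comp R.lim).norm
  obtain ⟨T₂, h2⟩ := eventually_atTop.1 ((eventually_ge_atTop R.T₁).and
    ((R.lim.eventually (K.opn.mem_nhds K.mem)).and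
      (eventually_all.2 fun b => h1.eventually (gt_mem_nhds (K.c0 b)))))
  have h3 : R.T₁ ≤ T₂ := (h2 T₂ le_rfl).1
  let Q : ∀ b, (∀ l, 1 ≤ K.m b l) → (rf R h3).Ch := fun b hb =>
    ch R h3 K b (hb 0) fun T hT => ⟨(h2 T hT).2.1, (h2 T hT).2.2 b⟩
  have hp : ∀ b hb i, (Q b hb).Tp (lm (A b) (pe i)) := fun b hb i => by
    refine ⟨fun l => ⟨A b l i, lm_pe _ _ _⟩, ?_⟩
    have h4 : ∑ l, (K.m b l : ℂ) * A b l i = 0 := by exact_mod_cast (hG.kb b hb).1 i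
    change ∑ l, (K.m b l : ℂ) * lm (A b) (pe i) l = 0
    simp only [lm_pe, ← mul_assoc, ← Finset.sum_mul, h4, zero_mul]
  obtain ⟨T, t1, t2, ⟨Fb, f1, f2, f3⟩, t3⟩ := ((eventually_ge_atTop T₂).and
    ((hT.eventually_ge_atTop T₀).and (hFb.and (eventually_all.2 fun b => eventually_all.2 fun hb =>
      eventually_all.2 fun i => eventually_all.2 fun j =>
        Rf.Ch.kill (hp b hb i) (hp b hb j) F k x (16 * Real.pi ^ 2 * C))))).exists
  have := (R.R T).Y.sc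
  obtain ⟨b, c, Φ, hb, hP, hv⟩ := hT₀ _ _ Fb t2
  have t0 := h3.trans t1
  have pt : ParT ρ Φ := ⟨hP.cont, hP.hol, hP.unit, hP.peri, hP.inj⟩
  have fl : ∀ v ∈ Key.Tb (n + n) ρ, Key.Flat (Key.pl (w T) Φ) C η a v := fun v h =>
    f1 ▸ ⟨(hv v h).2.lo, (hv v h).2.hi, (hv v h).2.sm, fun i i' q a b =>
      ((hv v h).2.small i i' q a b).trans (min_le_left _ _)⟩
  refine ⟨T, t0, Φ, pt, fl, fun α β γ u hu hc v hv' i j => ?_⟩
  have h5 : ∀ v ∈ Key.Tb (n + n) ρ,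
      (K.c b : ℂ) * ∏ l, Key.ex c (A b) v l ^ K.m b l = R.A.τ (R.t T) := fun v h => by
    have h6 := mem_image_of_mem (Fb.j b) (hP.mem v h)
    rw [Fb.img, hP.eq v h] at h6
    exact h6.2
  have h6 : ∀ l, c l ≠ 0 := fun l hl => (Q b hb).ne T t1 ((h5 v hv').symm.trans (by
    rw [Finset.prod_eq_zero (Finset.mem_univ l), mul_zero]
    rw [Key.ex, hl, zero_mul]
    exact zero_pow (Nat.one_le_iff_ne_zero.1 (hb l))))
  have h7 : (fun l => log (c l)) + lm (A b) v ∈ Ng (n + n + 1) := ng_of (by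
    rw [xp_lm _ h6]
    exact ((hv v hv').1.trans (min_le_right _ _)).trans_lt (by norm_num))
  have h8 : (Q b hb).cc * exp ((Q b hb).μ ((fun l => log (c l)) + lm (A b) v)) =
      (Q b hb).tt T := by
    rw [Rf.Ch.μ, ← xp_prod, xp_lm _ h6]
    exact h5 v hv'
  have h9 := fun u => Rf.Ch.eq_g (K := Q b hb) (Φ := Φ) (u := u) t1 (lm (A b)) _ (hp b hb i)
    (hp b hb j) h7 h8 (fun s t => par_sm pt (tb_plane hv' i j s t)) fun s t => by
      have k1 := tb_plane hv' i j s t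
      rw [Rf.Ch.Λ, xp_lm _ h6]
      exact (((K.Θ b).left_inv ((f2 b _).1 (hP.mem _ k1)).1).symm.trans
        (congrArg (K.Θ b).symm ((f3 b _).symm.trans (hP.eq _ k1))))
  obtain ⟨⟨s1, us, s2, s3, s4⟩, s5⟩ := R.sym T t0
  obtain ⟨-, ⟨w1, -, uw, w2, w3, w4⟩, w5⟩ := h T t0
  refine (h9 u hu).symm.trans ?_
  refine (congrArg _ hc).trans (t3 b hb i j _ h7 h8 ?_ ?_ α β γ)
  · refine (congrArg (‖·‖) ((congrArg _ s4.symm).trans (h9 us s3))).trans_le ?_
    exact Pe_le fun s t => bd_s pt (tb_plane hv' i j s t) (fl _ (tb_plane hv' i j s t)) w5 s1 s5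
      s2 i j
  · rw [← hl T t0]
    refine (congrArg (‖·‖) ((congrArg _ w4.symm).trans (h9 uw w3))).trans_le ?_
    exact Pe_le fun s t => bd_w pt (tb_plane hv' i j s t) (fl _ (tb_plane hv' i j s t)) w1 w2 i j

end Vale.Agent.P301Z.Pt
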